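import Vale.Agent.P257.N.Lin
import Vale.Agent.P257.M.Defs
import Vale.Agent.P257.C.TConn

/-!
# P257, block N: the cells with degrees in a set as test objects
-/

open CategoryTheory MonoidalCategory Limits MonObj

namespace Vale.Agent.P257.N

open Vale.Agent.P251.H Vale.Agent.P251.H.StabInput Vale.Agent.P251.M
open Vale.Agent.P257.A Vale.Agent.P257.L Vale.Agent.P257.C Vale.Agent.P257.M

universe v u v' u'

section

variable {C : Type u} [Category.{v} C] [MonoidalCategory C] {Γ : Type} [AddCommGroup Γ]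
  (c : Cells C (ℤ × Γ)) {S₁ : C} (e : c.obj (1, 0) ≅ S₁) (R : Set Γ)

/-- the cells of all dimensions with degree in `R` -/
def degTests : Tests S₁ where
  P A := ∃ k : ℤ, ∃ g ∈ R, A = c.obj (k, g)
  up := fun ⟨k, g, hg, h⟩ => ⟨_, ⟨k + 1, g, hg, rfl⟩, ⟨eqToIso (by simp) ≪≫
    (c.add (k, g) (1, 0)).symm ≪≫ (eqToIso h.symm ⊗ᵢ e)⟩⟩
  dn := fun ⟨k, g, hg, h⟩ => ⟨_, ⟨k - 1, g, hg, rfl⟩, ⟨eqToIso (by simp [h]) ≪≫
    (c.add (k - 1, g) (1, 0)).symm ≪≫ whiskerLeftIso _ e⟩⟩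

variable {c e R} {X Y : C}

theorem degTests_p (k : ℤ) {g : Γ} (hg : g ∈ R) : (degTests c e R).P (c.obj (k, g)) :=
  ⟨k, g, hg, rfl⟩

theorem degTests_we_iff {φ : X ⟶ Y} :
    (degTests c e R).WE φ ↔ ∀ k : ℤ, ∀ g ∈ R, Bij (c.obj (k, g)) φ :=
  ⟨fun h k _ hg => h _ (degTests_p k hg), fun h _ ⟨k, g, hg, l⟩ => l ▸ h k g hg⟩

theorem degTests_we_mono {R' : Set Γ} {φ : X ⟶ Y} (h : (degTests c e R).WE φ) (k : R' ⊆ R) :
    (degTests c e R').WE φ :=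
  degTests_we_iff.2 fun l g hg => degTests_we_iff.1 h l g (k hg)

variable [Preadditive C]

theorem degTests_zr_iff : Zr (degTests c e R) X ↔ ∀ k : ℤ, ∀ g ∈ R, c.Van X (k, g) :=
  ⟨fun h k _ hg => h _ (degTests_p k hg), fun h _ ⟨k, g, hg, l⟩ => l ▸ h k g hg⟩

theorem zr_of_tConn (h : c.TConn Y ∅) (X : C) : Zr (degTests c e R) (X ⊗ Y) :=
  degTests_zr_iff.2 fun _ _ _ => h X _ (by simp)

end

variable {M : Type u} [Category.{v} M] [MonoidalCategory M] [SymmetricCategory M]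
  [MonoidalClosed M] [HasZeroMorphisms M] [HasColimitsOfSize.{0, 0} M] [StabInput M]
  {C : Type u'} [Category.{v'} C] [MonoidalCategory C] {st : M ⥤ C} {E : Tests (st.obj (S M))}
  {X : M} {B B' : CommMon M} {i : B ⟶ B'} {x : X ⟶ B.X} {χ : X ⊗ CI M ⟶ B'.X}

theorem Lin.c1 (h : Lin st E i x χ) (w : coneBase X ≫ χ = x ≫ ah i) : E.WE (st.map (P257.M.c1 w)) :=
  h _ _ _ (isPushout_cone (actL x)) (ck_c1 w) (ci_c1 w)

theorem Lin.of_c1 (w : coneBase X ≫ χ = x ≫ ah i) (h : E.WE (st.map (P257.M.c1 w))) :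
    Lin st E i x χ :=
  Lin.of_model (isPushout_cone (actL x)) (ck_c1 w) (ci_c1 w) h

end Vale.Agent.P257.N
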