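import Vale.Agent.P257.N.Face
import Vale.Agent.P257.Z.CB
import Vale.Agent.P257.W.Le0

/-!
# P257, block N: the base level

* `UN.base`: a universally good level over the unit with `N = 𝟙 / p t`.
-/

open CategoryTheory MonoidalCategory Limits Functor.LaxMonoidal Functor.OplaxMonoidal

namespace Vale.Agent.P257.N

open Vale.Agent.P251.H Vale.Agent.P251.H.StabInput
open Vale.Agent.P251.M (IsInv)
open Vale.Agent.P257.A Vale.Agent.P257.T Vale.Agent.P257.K Vale.Agent.P257.L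
open Vale.Agent.P257.M Vale.Agent.P257.C Vale.Agent.P257.W
open Vale.Agent.P257.E (triv JA tt tt_nat tt_assoc tau_st tauRsA)
open Vale.Agent.P257.F (DH sH RH RM)
open Vale.Agent.P257.Z (Sg AA DA VA Cb QD RT fd tA nul cb fld coneBase_nul)
open Equiv (Perm)

set_option linter.unusedSectionVars false

universe v u

section coh

variable {H : Type u} [Category.{v} H] [MonoidalCategory H] {T R A Q W : H}

theorem bij_trf_aux {τ : 𝟙_ H ⟶ W} (h : Bij T ((ρ_ (A ⊗ R)).inv ≫ (A ⊗ R) ◁ τ)) :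
    Bij T (A ◁ ((ρ_ R).inv ≫ R ◁ τ)) := h.of_arrow (Iso.refl _) (α_ _ _ _) (by simp)

theorem bij_fd_aux {f : W ⟶ 𝟙_ H} {t : Q ⟶ 𝟙_ H} (h1 : Bij T (((R ⊗ A) ⊗ Q) ◁ f))
    (h2 : Bij T (R ◁ (A ◁ t ≫ (ρ_ A).hom))) : Bij T ((R ⊗ A) ◁ (Q ◁ f ≫ (ρ_ Q).hom ≫ t)) := by
  rw [← Category.assoc, MonoidalCategory.whiskerLeft_comp]
  exact (h1.of_arrow (α_ _ _ _) (ρ_ _) (by simp)).comp
    (h2.of_arrow (α_ _ _ _).symm (ρ_ _).symm (by simp))

theorem bij_ks_left [SymmetricCategory H] {S : H} [ComonObj S] {P : Kl S} {φ : A ⟶ Q} :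
    Bij P ((Kl.ks S).obj R ◁ (Kl.ks S).map φ) ↔ Bij (S ⊗ P.obj) (R ◁ φ) := by
  rw [← Kl.ks_whiskerLeft, Kl.bij_ks]

theorem whiskerLeft_nsmul [Preadditive H] [MonoidalPreadditive H] (n : ℕ) (t : R ⟶ A) :
    (ρ_ R).inv ≫ R ◁ (n • 𝟙 _) ≫ (ρ_ R).hom ≫ t = n • t := by
  rw [show R ◁ (n • 𝟙 (𝟙_ H)) = n • R ◁ 𝟙 _ from (tensorLeft R).map_nsmul]
  simp

end coh

section gen

variable {M : Type u} [Category.{v} M] [MonoidalCategory M] [SymmetricCategory M]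
  [MonoidalClosed M] [HasZeroMorphisms M] [HasColimitsOfSize.{0, 0} M] [StabInput M]
  {D : Stab M} {T : SC D} {U Q X Y : M} {B B' C : CommMon M}

theorem bij_c1_pre {x : X ⟶ B.X} {i : B ⟶ B'} {χ : X ⊗ CI M ⟶ B'.X}
    (w : coneBase X ≫ χ = x ≫ ah i) (u : Y ⟶ X) [IsIso ((st D).map u)] {y : Y ⟶ B.X}
    {ξ : Y ⊗ CI M ⟶ B'.X} (w' : coneBase Y ≫ ξ = y ≫ ah i) (h1 : y = u ≫ x)
    (h2 : ξ = u ▷ CI M ≫ χ) : Bij T ((st D).map (c1 w')) ↔ Bij T ((st D).map (c1 w)) := by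
  have h := coneMap_c1 w' w (𝟙 _) (𝟙 _) u ((Category.comp_id _).trans h1)
    ((Category.comp_id _).trans (Category.id_comp _).symm) ((Category.comp_id _).trans h2)
  have : IsIso ((st D).map (ah (𝟙 B))) := inferInstanceAs (IsIso ((st D).map (𝟙 _)))
  have : IsIso ((st D).map (ah (𝟙 B) ⊗ₘ u)) := by
    rw [SC.st_tensorHom]
    infer_instance
  have := isIso_coneMap D _ _ (actL_nat y (𝟙 B) u x ((Category.comp_id _).trans h1))
  rw [(Category.comp_id (c1 w')).symm.trans h.symm, Functor.map_comp]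
  exact ⟨(Bij.of_isIso _ _).of_comp_left, (Bij.of_isIso _ _).comp⟩

theorem bij_dbl (l : U ⟶ 𝟙_ M) [IsIso ((st D).map l)] {j : Q ⟶ Y} [IsIso ((st D).map j)]
    {z : Y ⟶ 𝟙_ M} {f : Q ⟶ 𝟙_ M} (hz : j ≫ z = f) {ν : Q ⊗ CI M ⟶ C.X}
    (hν : coneBase Q ≫ ν = f ≫ MonObj.one) {κ : cone j ⟶ C.X} (h1 : ck j ≫ κ = ν) {i : B ⟶ B'}
    {k : C ⟶ B'} {ξ : (U ⊗ cone j) ⊗ CI M ⟶ B'.X} (hξ : coneBase _ ≫ ξ = tt l _ ≫ κ ≫ ah k)
    (w : coneBase (U ⊗ Y) ≫ (U ◁ ci j) ▷ CI M ≫ ξ = (tt l Y ≫ z ≫ MonObj.one) ≫ ah i)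
    (h : Bij T ((st D).map (B.X ◁ cdesc ν MonObj.one hν ≫ ah (cdsc i k)))) :
    Bij T ((st D).map (c1 w)) := by
  have w0 : coneBase Q ≫ ν ≫ ah k = (f ≫ MonObj.one (X := B.X)) ≫ ah i := by
    rw [reassoc_of% hν, Category.assoc, IsMonHom.one_hom, IsMonHom.one_hom]
  have w1 : coneBase (U ⊗ Q) ≫ (U ◁ j) ▷ CI M ≫ (U ◁ ci j) ▷ CI M ≫ ξ =
      (tt l Q ≫ f ≫ MonObj.one) ≫ ah i := by
    rw [coneBase_naturality_assoc, w, ← hz, Category.assoc, Category.assoc,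
      E.tt_nat_assoc, Category.assoc, Category.assoc, Category.assoc]
  have w2 : coneBase (U ⊗ Q) ≫ tt l Q ▷ CI M ≫ ν ≫ ah k = (tt l Q ≫ f ≫ MonObj.one) ≫ ah i := by
    rw [coneBase_naturality_assoc, w0, Category.assoc, Category.assoc, Category.assoc]
  have : IsIso ((st D).map (U ◁ j)) := by
    rw [SC.st_whiskerLeft]
    infer_instance
  have : IsIso ((st D).map (tt l Q)) := by
    rw [tt, Functor.map_comp, SC.st_whiskerRight]
    infer_instance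
  obtain ⟨e, he⟩ := exists_c1_one hν i k w0
  obtain ⟨K, f₁, f₂, q, a1, a2, a3, a4⟩ := exists_faces D (((α_ _ _ _).hom ≫ U ◁ ck j) ▷ _ ≫ ξ)
    (by rw [← comp_whiskerRight_assoc, reassoc_of% coneBase_assoc,
      ← MonoidalCategory.whiskerLeft_comp, coneBase_ck, MonoidalCategory.whiskerLeft_comp,
      comp_whiskerRight_assoc])
    (by rw [coneBase_naturality_assoc, hξ, Category.assoc, E.tt_nat_assoc, reassoc_of% h1,
      E.tt_assoc_assoc]) w1 w2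
  rw [← bij_c1_pre w (U ◁ j) w1 (by rw [E.tt_nat_assoc, reassoc_of% hz]) rfl, ← a3,
    Functor.map_comp]
  refine (Bij.of_isIso _ _).comp ((Bij.of_isIso _ ((st D).map f₂)).of_comp_left ?_)
  rw [← Functor.map_comp, a4, bij_c1_pre w0 (tt l Q) w2 rfl rfl, ← he, Functor.map_comp]
  exact (Bij.of_isIso _ _).comp h

variable {G : Type} [Group G] {S Y Y' : Action M G} {A : M}

theorem stb_comp (e : (uL S).obj A ⟶ Y) (u : Y ⟶ Y') : stb D (e ≫ u) = stb D e ≫ _ ◁ u := by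
  rw [stb, stb, MonoidalCategory.whiskerLeft_comp, Category.assoc, Category.assoc]

theorem stb_one [ComonObj S] {e : (uL S).obj A ⟶ Y} {z : Y ⟶ 𝟙_ _} {x : A ⟶ 𝟙_ M}
    (h : e ≫ z = (uL S).map x ≫ η (uL S)) {Z : CommMon (Action M G)} {φ : (uL S).obj B.X ⟶ Z.X}
    (hφ : IsOpHom (uL S) φ) : (uL S).map ((D.t A ≫ x) ≫ MonObj.one) ≫ φ =
      stb D e ≫ tt (lamU G D) Y ≫ z ≫ MonObj.one := by
  rw [← Category.assoc (stb D e), stb_tt, Category.assoc _ e, ← Category.assoc e, h,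
    Functor.map_comp, Functor.map_comp, Category.assoc, Category.assoc, Category.assoc, hφ.one]

theorem exists_bot [HasFix M] [ComonObj S] [IsCommComonObj S] {Z : CommMon (Action M G)}
    {e : (uL S).obj A ⟶ Y} {x : A ⟶ 𝟙_ M} {y : Y ⟶ Z.X}
    (h : (uL S).map x ≫ η (uL S) ≫ MonObj.one = e ≫ y) {Q : ∀ B : CommMon M, NZ S B → Prop}
    (H : ∀ (B : CommMon M) (a b : NZ S B) (k : Z ⟶ a.Z) (s : NZ.Step e a b), IsIso a.β →
      IsIso (cdsc a.γ k) → s.x = x ≫ MonObj.one → s.y = y ≫ ah k → Q B b) :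
    ∃ (b : NZ S (CommMon.trivial M)) (χ : A ⊗ CI M ⟶ b.N.X), IsAttach b.β x χ ∧ UNZ Q b := by
  obtain ⟨b, s, h1, h2⟩ := (NZ.bot S Z).exists_step (e := e) (x := x) (y := y)
    ((congrArg (_ ≫ ·) ((NZ.bot_φ S Z).trans ((Category.assoc _ _ _).symm.trans
      (congrArg (· ≫ _) (isOpNat_uPr S).unit)))).trans h)
  have k : IsAttach s.hom.n x s.χ := h1 ▸ s.attN
  exact ⟨b, s.χ, ((Category.id_comp s.hom.n).symm.trans s.hβ) ▸ k,
    UNZ.step (unz_bot S Z) s fun _ _ _ _ k _ s' hk k1 k2 _ _ _ => H _ _ _ k.z s' hk.isIso_β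
      hk.isIso_cdsc (k1.trans (congrArg₂ (· ≫ ·) h1 (ah_trivial k.n))) (h2 ▸ k2)⟩

end gen

variable {ι : Type} [Finite ι] [Nontrivial ι] [DecidableEq ι] {p : ℕ} [hp : Fact p.Prime]
  [hι : Fact (Nat.card ι = p)] {P Lm : ℤ} {A : MM} {B : CommMon MM} {X Y : Action MM (Perm ι)}

theorem sg_tau (T : EE p) : Sg 1 ((RH ι p).obj ((kT ι p).obj T).obj) :=
  (Sg.of_act (Y := (triv _).obj T) fun _ => rfl).of_iso ((tauRsA _ _ _).symm.app _)

theorem sg_RA (A : MM) : Sg (-1) ((RH ι p).obj ((sH ι p).obj (RM ι ⊗ (triv _).obj A))) :=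
  mul_one (-1 : ℤˣ) ▸ F.sg_map_tensor F.sg_RM (F.sg_map_triv (sE p) A)

theorem kφ_prS (A : MM) : kφ p (prS (SM ι) ((triv _).obj A)) = 𝟙 _ :=
  Kl.hom_ext (st_ee (DH ι p) (SM ι) _)

instance : IsInv ((JA _ MM ⋙ sH ι p).obj (VA ι)) := (F.lamInv_DH ι p).va

/-- the transfer -/
noncomputable def trf (τ : 𝟙_ _ ⟶ (JA _ MM ⋙ sH ι p).obj (DA ι)) :
    (kP ι p).obj (RT ι 1) ⟶ (kP ι p).obj (QD ι) :=
  (Kl.ks _).map ((ρ_ ((sH ι p).obj (RT ι 1))).inv ≫ _ ◁ τ)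

theorem sH_fd : (sH ι p).map (fd ι) =
    (sH ι p).obj (RT ι 1) ◁ fld (JA _ MM ⋙ sH ι p) ≫ (ρ_ _).hom ≫ (sH ι p).map (tA ι 1) := by
  rw [fd, tensorHom_def', Category.assoc, unitors_equal, rightUnitor_naturality, Functor.map_comp,
    Functor.map_comp, SC.st_whiskerLeft, SC.st_rightUnitor_hom, Functor.map_comp]
  exact congrArg (fun x => _ ◁ (_ ≫ x) ≫ _) (Category.comp_id _).symm

variable (C : CX ι p) (h3 : 3 ≤ Nat.card ι)
include C h3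

theorem fb_id (T R : EE p) : FB (kT ι p) T (𝟙 ((kT ι p).obj R)) := by
  obtain ⟨i⟩ : Nonempty ι := inferInstance
  have h : ∀ x : T ⟶ R, (vx C i).lift.map ((kT ι p).map x ≫ 𝟙 _) = x := fun x =>
    (congrArg _ (Category.comp_id _)).trans (vx_lift_tau C i x)
  exact ⟨fun x y k => (h x).symm.trans ((congrArg _ k).trans (h y)),
    fun y => ⟨_, (bij_lift C i h3 (sg_tau T) (sg_tau R)).1 (h _)⟩⟩

omit C in
theorem trf_fd [Fintype ι] {C : CX ι p} {τ} (hτ : C.IsTau τ) :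
    trf τ ≫ (kP ι p).map (fd ι) = p • (kP ι p).map (tA ι 1) := by
  have h : (Kl.ks (Sh ι (DH ι p))).map (τ ≫ fld (JA _ MM ⋙ sH ι p)) = p • 𝟙 _ := Kl.hom_ext (by
    have k := C.tau_fld h3 hτ
    rw [hι.out, show Z.aug (JA _ MM ⋙ sH ι p) = ComonObj.counit from (diag (DH ι p)).counit.symm]
      at k
    refine (Kl.un_ks _).trans (Eq.trans ?_ (rfl : p • Kl.ee _ (𝟙_ _) = _))
    rw [Kl.ee, unitors_equal, rightUnitor_naturality, Category.assoc, k, Preadditive.comp_nsmul])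
  rw [trf, Functor.comp_map, sH_fd, ← Functor.map_comp, Category.assoc,
    ← MonoidalCategory.whiskerLeft_comp_assoc, Functor.map_comp, Functor.map_comp,
    Kl.ks_whiskerLeft, h, Functor.map_comp]
  exact whiskerLeft_nsmul _ _

theorem bij_trf_left [Fintype ι] {τ} (hτ : C.IsTau τ) (T : EE p) (A : MM) :
    Bij ((kT ι p).obj T) ((kP ι p).obj ((triv _).obj A) ◁ trf τ) :=
  bij_ks_left.2 (bij_trf_aux (bij_trf C h3 hτ (sg_tau T)
    (X := (sH ι p).obj ((triv _).obj A ⊗ RT ι 1))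
    (mul_one (1 : ℤˣ) ▸ F.sg_map_tensor (F.sg_map_triv (sE p) _) (F.sg_map_triv (sE p) _))))

theorem bij_fd {T W : ℤ} {c : Lam} (hs : V.Stab (tE p) P ((sE p).obj A) c W) (hW : W + 1 ≤ T)
    (hT : T ≤ P) (l : ℤ) :
    Bij ((cK ι p).obj (l, (c, T))) ((kP ι p).obj (RM ι ⊗ (triv _).obj A) ◁ (kP ι p).map (fd ι)) := by
  have h2 := bijK_left C F.nf0_RM (z := (triv _).obj A ◁ tA ι 1 ≫ (ρ_ _).hom) (fun l => by
    rw [Action.comp_hom, Action.whiskerLeft_hom, Z.tA_hom, Action.rightUnitor_hom_hom]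
    exact (worldE hp.out).bij_tX hs hW hT l) l
  rw [Functor.comp_map, Functor.map_comp, SC.st_whiskerLeft, SC.st_rightUnitor_hom] at h2
  rw [Functor.comp_map, sH_fd]
  exact bij_ks_left.2 (bij_fd_aux (bij_fold C h3 (sg_tau ((cE p).obj (l, (c, T))))
    (X := (sH ι p).obj ((RM ι ⊗ (triv _).obj A) ⊗ RT ι 1))
    (mul_one (-1 : ℤˣ) ▸ F.sg_map_tensor (sg_RA A) (F.sg_map_triv (sE p) _)))
    (bij_ks_left.1 h2))

theorem van_cb (hP : P + 2 ≤ p) (hA : PosT A 0) {T W : ℤ} {c : Lam}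
    (hs : V.Stab (tE p) P ((sE p).obj A) c W) (hW : W + 1 ≤ T) (hT : T ≤ P) (l : ℤ) :
    (cK ι p).Van ((kP ι p).obj ((RM ι ⊗ (triv _).obj A) ⊗ (Cb ι).X)) (l, (c, T)) := by
  have h := Z.bij_cb_tau (hι.out ▸ h3 : 3 ≤ p) (X := RM ι ⊗ (triv _).obj A)
    (V.posT_mono (V.posT_tensor (V.posT_J _) hA) (by simp)) (sg_RA A) (T := T) (by omega) l c
  have k : Bij ((cK ι p).obj (l, (c, T))) ((kP ι p).map ((RM ι ⊗ (triv _).obj A) ◁ cb ι)) :=
    Kl.bij_ks.2 h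
  exact V.Surj.van (.of_bijective k) ((isCone_kP (fd ι)).van _ l _
    (.of_bijective (bij_fd C h3 hs hW hT l)) (.of_bijective (bij_fd C h3 hs hW hT _)))

theorem fb_prS (R : EE p) (A : MM) : FB (kT ι p) R (kφ p (prS (SM ι) ((triv _).obj A))) :=
  kφ_prS (p := p) (ι := ι) A ▸ fb_id C h3 R _

theorem fb_trf [Fintype ι] {τ} (hτ : C.IsTau τ)
    (e : (sE p).obj A ≅ (sE p).obj (rp (0, ((1 : ℕ) : ℤ)))) {j : QD ι ⟶ Y}
    [IsIso ((sH ι p).map j)] {e₀ : (uL (SM ι)).obj A ⟶ Y}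
    (h : kφ p e₀ = (kT ι p).map e.hom ≫ trf τ ≫ (kP ι p).map j) (B : MM) (R : EE p) :
    FB (kT ι p) R (δ _ _ _ ≫ (kφ p (prS (SM ι) ((triv _).obj B)) ⊗ₘ kφ p (stb (De p) e₀))) := by
  have k : Bij ((kT ι p).obj R) ((kT ι p).obj ((sE p).obj B) ◁ (kφ p (stb (De p) e₀) ≫
      (kP ι p).map (tt (lamU _ (De p)) Y))) := by
    have : IsIso ((kP ι p).map j) := inferInstanceAs (IsIso ((Kl.ks _).map ((sH ι p).map j)))
    rw [kφ_stb, h, MonoidalCategory.whiskerLeft_comp, MonoidalCategory.whiskerLeft_comp,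
      MonoidalCategory.whiskerLeft_comp]
    exact (Bij.of_isIso _ _).comp ((Bij.of_isIso _ _).comp
      ((bij_trf_left C h3 hτ R B).comp (Bij.of_isIso _ _)))
  rw [MonoidalCategory.whiskerLeft_comp] at k
  rw [kφ_prS, id_tensorHom, ← Category.id_comp (δ _ _ _ ≫ _)]
  exact (fb_id C h3 R _).post ((Bij.of_isIso _ _).comp ((Bij.of_isIso _ _).of_comp_right k))

theorem Gd.base [Fintype ι] {τ} (hτ : C.IsTau τ) (hP : P + 2 ≤ p)
    (hA : NF A (0, ((1 : ℕ) : ℤ)) 0) (e : (sE p).obj A ≅ (sE p).obj (rp (0, ((1 : ℕ) : ℤ))))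
    {x : A ⟶ 𝟙_ MM} {j : QD ι ⟶ Y} [IsIso ((sH ι p).map j)] {z : Y ⟶ 𝟙_ _} (hz : j ≫ z = fd ι)
    {e₀ : (uL (SM ι)).obj A ⟶ Y} (h0 : e₀ ≫ z = (uL (SM ι)).map x ≫ η (uL (SM ι)))
    (h1 : kφ p e₀ = (kT ι p).map e.hom ≫ trf τ ≫ (kP ι p).map j) (hY : PosT Y.V 1)
    {κ : cone j ⟶ (Cb ι).X} (h2 : ck j ≫ κ = nul ι) (h2' : ci j ≫ κ = z ≫ MonObj.one)
    {a b : NZ (SM ι) B} {k : Cb ι ⟶ a.Z} [IsIso a.β] [IsIso (cdsc a.γ k)]
    (s : NZ.Step (stb (De p) (e₀ ≫ ci j)) a b) (hx : s.x = ((De p).t A ≫ x) ≫ MonObj.one)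
    (hy : s.y = (tt (lamU _ (De p)) _ ≫ κ) ≫ ah k) (hB : PosT B.X 0) : Gd p P Lm 1 B b := by
  have hp3 : 3 ≤ p := hι.out ▸ h3
  have hA' : NF ((De p).U ⊗ A) (0, ((1 : ℕ) : ℤ)) 0 := .U_tensor hA.nf0
  have hK : PosT (cone j).V 1 := posT_coneV j (Z.supp_RT _ |>.mono fun _ h => h.2) hY
  have pZ : PosT a.Z.X.V 0 := Supp.of_iso (V.posT_mono (V.posT_tensor hB Z.posT_Cb) (by simp))
    ((Action.forget _ _).mapIso (ahIso (asIso (cdsc a.γ k))))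
  have hZ := bij_ah_hom C s.attZ (hv_U _) pZ (posT_U hK)
    ((tensorLeft ((sE p).obj (De p).U)).map_isZero (isZero_coneV j))
  have att : IsAttach b.β (((De p).t A ≫ x) ≫ MonObj.one) s.χ := s.hβ ▸ isAtt_iso_comp a.β (by
    rw [Category.assoc, IsMonHom.one_hom, ← hx]
    exact s.attN)
  refine ⟨V.posT_attach att hB (hA'.posT zero_le_one),
    V.posT_attach s.attZ.und pZ (V.posT_mono (posT_U hK) zero_le_one), fun d T hT l => ?_,
    fun W hs d T k1 k2 k3 l => ?_⟩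
  · have t := fb_trf C h3 hτ e h1 B.X
    have hξ : coneBase _ ≫ s.ξ = tt (lamU _ (De p)) _ ≫ κ ≫ ah (k ≫ s.hom.z) := by
      rw [s.attZ.w, hy, ah_comp, Category.assoc, Category.assoc]
    have w : coneBase _ ≫ (_ ◁ ci j) ▷ CI _ ≫ s.ξ =
        (tt (lamU _ (De p)) Y ≫ z ≫ MonObj.one) ≫ ah b.γ := by
      rw [coneBase_naturality_assoc, hξ, E.tt_nat_assoc, reassoc_of% h2', Category.assoc,
        Category.assoc, IsMonHom.one_hom, IsMonHom.one_hom]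
    obtain ⟨i⟩ := hA'.iso p
    refine fb_c1 _ _ _ (Z := trivC _ B) (isOpHom_prS B) b.isOpHom_φ 
      (stb_one (Z := trivC _ B) h0 (isOpHom_prS B)) b.β_φ.symm
      (by rw [s.hχ, ← comp_whiskerRight_assoc, ← stb_comp]) att.w w (cPred l _)
      (fb_prS C h3 _ _) (fb_prS C h3 _ _) (t _) (t _)
      ((worldE hp.out).bij_c1 att hA'.hv hB (hA'.posT le_rfl) ⟨i⟩ Even.zero l d (by omega))
      (Kl.bij_ks.2 (bij_dbl _ hz coneBase_nul h2 hξ w ?_))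
    rw [show cdsc b.γ (k ≫ s.hom.z) = cdsc a.γ k ≫ s.hom.z from cten_ext
      (by rw [cinl_cdsc, cinl_cdsc_assoc, s.hγ]) (by rw [cinr_cdsc, cinr_cdsc_assoc]), ah_comp,
      Functor.map_comp, Functor.map_comp]
    exact (Z.bij_cb_tau hp3 (X := (triv _).obj B.X) hB (F.sg_map_triv _ _) (by omega) l d).comp
      ((Bij.of_isIso _ ((sH ι p).map (ahIso (asIso (cdsc a.γ k))).hom)).comp
        (Kl.bij_ks.1 (bijK C (hZ d (by omega)) l)))
  · exact V.Surj.van (.of_bijective (bijK_left C F.nf0_RM (hZ d (by omega)) l))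
      ((van_cb C h3 hP hB (hs d k1) k2 k3 l).of_iso
        ((kP ι p).mapIso (α_ _ _ _ ≪≫ whiskerLeftIso _ (ahIso (asIso (cdsc a.γ k))))))

/-- **The base level.** -/
theorem UN.base (hP : P + 2 ≤ p) (hA : NF A (0, ((1 : ℕ) : ℤ)) 0) (x : A ⟶ 𝟙_ MM)
    (e : (sE p).obj A ≅ (sE p).obj (rp (0, ((1 : ℕ) : ℤ))))
    (hx : (sE p).map x = p • (e.hom ≫ (sE p).map (t1 1))) :
    ∃ (a : NZ (SM ι) (CommMon.trivial MM)) (A' : MM) (u : A' ⟶ A) (χ : A' ⊗ CI MM ⟶ a.N.X),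
      NF A' (0, ((1 : ℕ) : ℤ)) 0 ∧ IsIso ((sE p).map u) ∧ IsAttach a.β (u ≫ x) χ ∧
        UN p P Lm a 1 := by
  have := Fintype.ofFinite ι
  obtain ⟨τ, hτ⟩ := C.exists_tau
  have h0 : kφ p ((uL (SM ι)).map x ≫ η (uL (SM ι))) =
      ((kT ι p).map e.hom ≫ trf τ) ≫ (kP ι p).map (fd ι) := by
    refine (kf_map _ _ _ _ _).trans ?_
    rw [← (isOpNat_uPr (SM ι)).unit, kf_comp, hx, Category.assoc, trf_fd h3 hτ,
      Functor.map_nsmul, Functor.map_comp, Preadditive.nsmul_comp, Preadditive.comp_nsmul,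
      Category.assoc, tA, Functor.map_comp]
    exact congrArg (fun y => p • (_ ≫ y)) (congrArg₂ (· ≫ ·) (congrArg _ (tau_st _ _ _ _))
      ((congrArg (· ≫ _) (kφ_prS _)).trans (Category.id_comp _)))
  obtain ⟨Y, e₀, z, j, h1, h2, h4, h5, h6⟩ := exists_fat' (D := DH ι p)
    (fun X => PosT X.V 1) (fun _ => posT_UH) posT_I posT_po (posT_uL (hA.posT le_rfl))
    (Z.supp_RT _ |>.mono fun _ h => h.2) (Kl.un ((kT ι p).map e.hom ≫ trf τ)) (fd ι) _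
    ((congrArg Kl.un h0).trans (Kl.un_comp_ks _ _))
  have w : coneBase _ ≫ nul ι = j ≫ z ≫ MonObj.one := by rw [coneBase_nul, reassoc_of% h2]
  obtain ⟨b, χ, h7, h8⟩ := exists_bot (e := stb (De p) (e₀ ≫ ci j)) (x := (De p).t A ≫ x)
    (y := tt (lamU _ (De p)) _ ≫ cdesc _ _ w) (Q := fun B b => PosT B.X 0 → Gd p P Lm 1 B b) (by
      rw [← Category.assoc (stb _ _), stb_tt, Category.assoc, Category.assoc, ci_cdesc,
        ← Category.assoc e₀, h1, Functor.map_comp, Category.assoc, Category.assoc])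
    fun _ _ _ _ s _ _ => Gd.base C h3 hτ hP hA e h2 h1 (Kl.hom_ext (h5.trans
      ((Kl.un_comp_ks _ _).symm.trans (congrArg Kl.un (Category.assoc _ _ _))))) h6
      (ck_cdesc _ _ _ w) (ci_cdesc _ _ _ w) s
  exact ⟨b, _, (De p).t A, χ, .U_tensor hA.nf0, inferInstance, h7, h8⟩

end Vale.Agent.P257.N
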