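import Vale.Agent.P257.N.Good
import Vale.Agent.P257.Z.Tw0
import Vale.Agent.P257.T.Frx

/-!
# P257, block N: division by the Euler class

* `GH e d W`: the restriction of `W` is a cell of degree `d` with the sign `e`;
* `zr_iso`, `zr_tw`: the two sources of vanishing;
* `div_surj`, `div_inj` (one step), `eu_surj`, `eu_inj` (several steps);
* `exists_kIso`, `exists_lift`: the data of a step.
-/

open CategoryTheory MonoidalCategory Limits Functor.LaxMonoidal Functor.OplaxMonoidal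

namespace Vale.Agent.P257.N

open Vale.Agent.P251.H Vale.Agent.P251.H.StabInput
open Vale.Agent.P251.M (IsInv)
open Vale.Agent.P257.K Vale.Agent.P257.L Vale.Agent.P257.M Vale.Agent.P257.C Vale.Agent.P257.W
open Vale.Agent.P257.D
open Vale.Agent.P257.E (triv JA aP rot_aP syl tau tauRsA)
open Vale.Agent.P257.F (DH sH RH)
open Vale.Agent.P257.Z (Ctx AA RA pd GC Sg eul sS)
open Equiv (Perm)

set_option linter.unusedSectionVars false

variable {ι : Type} [Finite ι] [DecidableEq ι] {p : ℕ} [hp : Fact p.Prime]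
  [hι : Fact (Nat.card ι = p)]

variable (p) in
/-- the restriction of `W` is a cell with a sign -/
abbrev GH (e : ℤˣ) (d : ℤ × Gam) (W : SC (DH ι p)) : Prop := GC (RH ι p) (cE p) e d W

variable (ι p) in
/-- the trivial action -/
noncomputable abbrev tH : EE p ⥤ SC (DH ι p) :=
  tau (De p) (aP (Gr.inc O (0 : Gam)) (syl p ι : Subgroup (Perm ι))) (rot_aP _ _)

theorem aH_eq_eul (D : Stab (Action MM (Perm ι))) : aH ι D = eul (JA _ MM ⋙ st D) := aH_eq D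

theorem sg_tH (T : EE p) : Sg 1 ((RH ι p).obj ((tH ι p).obj T)) :=
  (Sg.of_act (Y := (triv (Perm ι)).obj T) fun _ => rfl).of_iso ((tauRsA _ _ _).app T).symm

variable {e : ℤˣ} {d : ℤ × Gam} {l : ℤ} {g : Gam} {W W' Q : SC (DH ι p)} {B : CommMon MM}
  {a : NZ (SM ι) B} {k : ℕ}

theorem gh_tH {T : EE p} (u : T ≅ (cE p).obj d) : GH p 1 d ((tH ι p).obj T) := ⟨sg_tH T, ⟨u⟩⟩

theorem gh_triv {A : MM} (h : NF0 A g l) : GH p 1 (l, g) ((sH ι p).obj ((triv (Perm ι)).obj A)) :=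
  (h.iso p).elim fun u => gh_tH u

theorem gh_st {X : Action MM (Perm ι)} (hs : Sg e ((E.mapA (sE p) _).obj X)) (h : NF0 X.V g l) :
    GH p e (l, g) ((sH ι p).obj X) := ⟨hs, h.iso p⟩

/-- **FRX** -/
theorem gh_FrL [Nonempty ι] {X : MM} {c : O} {n lam : ℕ} (hc : Nonempty c.El)
    (i : X ≅ EF.rep (⟨c, g⟩ : JG) ⊗ tpow (S MM) n) :
    GH p ((-1) ^ Fintype.card c.El) (n - p * Fintype.card c.El, T.scD p lam g)
      ((sH ι p).obj ((T.FrL (Perm ι) ι lam).obj X)) := by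
  have h := (F.nf_FrL (G := Perm ι) (ι := ι) (lam := lam) hc i).nf0
  rw [hι.out] at h
  exact gh_st (F.sg_FrL i) h

/-- the power of a cell -/
theorem gh_powG {X : MM} (h : NF0 X g l) :
    GH p l.negOnePow (p * l, p • g) ((sH ι p).obj ((T.powG MM (Perm ι) ι).obj X)) := by
  have h' := T.nf0_pw ι h
  rw [hι.out] at h'
  exact (h.iso p).elim fun u => gh_st (F.sg_map_powG ((hasSign_cE l g).of_iso u.symm)) h'

instance : IsInv ((JA _ MM ⋙ sH ι p).obj (Z.VA ι)) := E.isInv_VA _ _ _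

variable [Nontrivial ι] (C : CX ι p)
include C

theorem gh_S : GH p 1 (1, 0) (sS (JA _ MM ⋙ sH ι p)) := C.gc_S (SIso p)

theorem gh_R : GH p (-1) ((p : ℤ) - 1, 0) (Rh ι (DH ι p)) := by
  have := C.gc_R (SIso p)
  rwa [hι.out] at this

theorem GH.eu {f : W ⟶ W'} (h : Eu (aH ι (DH ι p)) k f) (hW : GH p e (l, g) W) :
    GH p (e * (-1) ^ k) (l + k * ((p : ℤ) - 1), g) W' := by
  rw [aH_eq_eul] at h
  have := C.gc_eu (SIso p) h hW
  rwa [hι.out] at this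

theorem GH.tensor_R (hW : GH p e (l, g) W) :
    GH p (-e) (l + (p - 1), g) (W ⊗ Rh ι (DH ι p)) :=
  (hW.tensor (gh_R C)).cast (mul_neg_one e) (by simp)

theorem GH.tensor_S (hW : GH p e (l, g) W) :
    GH p e (l + 1, g) (W ⊗ sS (JA _ MM ⋙ sH ι p)) :=
  (hW.tensor (gh_S C)).cast (mul_one e) (by simp)

variable (h3 : 3 ≤ Nat.card ι)
include h3

/-- **TRIV** for objects with trivial signs -/
theorem exists_kIso (i : ι) {T : EE p} (hQ : Sg 1 ((RH ι p).obj Q))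
    (u : T ≅ (sE p).obj Q.obj.V) : ∃ t : (kT ι p).obj T ≅ (Kl.ks _).obj Q,
      (vx C i).lift.map t.hom = u.hom :=
  exists_klIso C i h3 (sg_tH T) hQ u

theorem GH.kIso (h : GH p 1 d W) : Nonempty ((cK ι p).obj d ≅ (Kl.ks _).obj W) := by
  obtain ⟨u⟩ := h.cell
  exact ⟨(exists_kIso C h3 (Classical.arbitrary ι) h.sg u.symm).choose⟩

theorem GH.kIso_nf (h : GH p 1 (l, g) Q) {P : MM} (hP : NF0 P g l) :
    Nonempty ((kT ι p).obj ((sE p).obj P) ≅ (Kl.ks _).obj Q) := by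
  obtain ⟨u⟩ := hP.iso p
  exact (h.kIso C h3).map fun t => (kT ι p).mapIso u ≪≫ t

theorem zr_iso (hW : GH p 1 (l, g) W) (hi : NIso p a g)
    (hv : (cE p).Van ((sE p).obj a.N.X) (l, g)) : Z.Zr (Sh ι _ ⊗ W) ((sH ι p).obj a.Z.X) := by
  obtain ⟨t⟩ := hW.kIso C h3
  exact Kl.zr_iff.1 (((hi l).zr hv).of_iso t (Iso.refl _))

theorem zr_tw (hW : GH p (-1) (l, g) W) (ht : NTw p a g) :
    Z.Zr (Sh ι _ ⊗ W) ((sH ι p).obj a.Z.X) := by
  obtain ⟨t⟩ := GH.kIso C h3 ((hW.tensor_R C).cast (neg_neg 1) rfl)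
  have h : Z.Zr ((Kl.ks (Sh ι (DH ι p))).obj W ⊗ (Kl.ks _).obj (Rh ι (DH ι p)))
      ((kP ι p).obj a.Z.X ⊗ (Kl.ks _).obj (Rh ι (DH ι p))) :=
    Z.Zr.of_iso (ht _) t (β_ _ _)
  exact Kl.zr_iff.1 h.of_shift

theorem zr_of (hW : GH p e (l, g) W) (h : (e = -1 ∧ NTw p a g) ∨
    (e = 1 ∧ NIso p a g ∧ (cE p).Van ((sE p).obj a.N.X) (l, g))) :
    Z.Zr (Sh ι _ ⊗ W) ((sH ι p).obj a.Z.X) := by
  rcases h with ⟨rfl, h⟩ | ⟨rfl, h, k⟩
  · exact zr_tw C h3 hW h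
  · exact zr_iso C h3 hW h k

/-- **DIV**, existence -/
theorem div_surj (hW : GH p e (l, g) W) (h : (e = -1 ∧ NTw p a g) ∨
    (e = 1 ∧ NIso p a g ∧ (cE p).Van ((sE p).obj a.N.X) (l, g))) : Function.Surjective
      fun y : W ⊗ Rh ι (DH ι p) ⟶ (sH ι p).obj a.Z.X => am (aH ι _) W ≫ y := by
  rw [aH_eq_eul]
  exact C.surj_am ((zr_of C h3 hW h).of_iso (β_ _ _) (Iso.refl _))

/-- **DIV**, uniqueness -/
theorem div_injective (hW : GH p e (l, g) W) (h : (e = -1 ∧ NTw p a g) ∨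
    (e = 1 ∧ NIso p a g ∧ (cE p).Van ((sE p).obj a.N.X) (l + 1, g))) : Function.Injective
      fun y : W ⊗ Rh ι (DH ι p) ⟶ (sH ι p).obj a.Z.X => am (aH ι _) W ≫ y := by
  rw [aH_eq_eul]
  exact C.inj_am ((zr_of C h3 (hW.tensor_S C) h).of_iso (β_ _ _) (Iso.refl _))

omit h3 in
theorem eu_aux {R : ∀ {V V' : SC (DH ι p)}, (V ⟶ V') → Prop} {f : W ⟶ W'}
    (hW : GH p e (l, g) W)
    (H : ∀ {P : ℕ → SC (DH ι p) → Prop}, (∀ i {V V'}, (V ≅ V') → P i V → P i V') →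
      (∀ i {V}, P i V → P (i + 1) (V ⊗ Rh ι (DH ι p))) → P 0 W →
      (∀ j, 0 ≤ j → j < 0 + k → ∀ V, P j V → R (am (aH ι _) V)) → R f)
    (h : ∀ j < k, ∀ V, GH p (e * (-1) ^ j) (l + j * ((p : ℤ) - 1), g) V → R (am (aH ι _) V)) :
    R f :=
  H (P := fun j V => GH p (e * (-1) ^ j) (l + j * ((p : ℤ) - 1), g) V) (fun _ _ _ j k => k.of_iso j)
    (fun i _ k => (k.tensor_R C).cast (by rw [pow_succ, ← mul_assoc, mul_neg_one]) (by
      rw [Nat.cast_succ, add_one_mul, add_assoc])) (by simpa using hW)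
    fun j _ hj => h j (by omega)

/-- **DIV**, existence, several steps -/
theorem eu_surj {f : W ⟶ W'} (hf : Eu (aH ι (DH ι p)) k f) (hW : GH p e (l, g) W)
    (hi : NIso p a g) (ht : NTw p a g) (hv : ∀ j < k, e * (-1) ^ j = 1 →
      (cE p).Van ((sE p).obj a.N.X) (l + j * ((p : ℤ) - 1), g)) :
    Function.Surjective fun y : W' ⟶ (sH ι p).obj a.Z.X => f ≫ y :=
  eu_aux C (R := fun {_ V'} f => Function.Surjective fun y : V' ⟶ (sH ι p).obj a.Z.X => f ≫ y) hW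
    (fun h1 h2 => hf.surj h1 h2) fun j hj _ hV => div_surj C h3 hV
      ((Int.units_eq_one_or _).symm.imp (⟨·, ht⟩) fun k => ⟨k, hi, hv j hj k⟩)

/-- **DIV**, uniqueness, several steps -/
theorem eu_inj {f : W ⟶ W'} (hf : Eu (aH ι (DH ι p)) k f) (hW : GH p e (l, g) W)
    (hi : NIso p a g) (ht : NTw p a g) (hv : ∀ j < k, e * (-1) ^ j = 1 →
      (cE p).Van ((sE p).obj a.N.X) (l + j * ((p : ℤ) - 1) + 1, g)) :
    Function.Injective fun y : W' ⟶ (sH ι p).obj a.Z.X => f ≫ y :=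
  eu_aux C (R := fun {_ V'} f => Function.Injective fun y : V' ⟶ (sH ι p).obj a.Z.X => f ≫ y) hW
    (fun h1 h2 => hf.inj h1 h2) fun j hj _ hV => div_injective C h3 hV
      ((Int.units_eq_one_or _).symm.imp (⟨·, ht⟩) fun k => ⟨k, hi, hv j hj k⟩)

omit C h3 [Nontrivial ι] [DecidableEq ι] hp hι in
theorem NIso.fb (hi : NIso p a g) {T : EE p} (u : T ≅ (cE p).obj (l, g)) :
    FB (kT ι p) T (kφ p a.φ) := (hi l).of_iso u

omit C h3 [Nontrivial ι] [DecidableEq ι] hp hι in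
/-- Kleisli classes come from strict maps to `N`. -/
theorem exists_lift (hi : NIso p a g) {P : MM} (hP : NF P g l)
    (x : (kT ι p).obj ((sE p).obj P) ⟶ (kP ι p).obj a.Z.X) :
    ∃ (P' : MM) (u : P' ⟶ P) (y : P' ⟶ a.N.X), NF P' g l ∧ IsIso ((sE p).map u) ∧
      (kT ι p).map ((sE p).map y) ≫ kφ p a.φ = (kT ι p).map ((sE p).map u) ≫ x := by
  obtain ⟨i⟩ := hP.iso p
  obtain ⟨z, rfl⟩ := (hi.fb i).surj x
  obtain ⟨P', u, y, h1, h2, h3⟩ := hP.rep z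
  exact ⟨P', u, y, h1, h2, by rw [← h3, Functor.map_comp, Category.assoc]⟩

/-- the data of a step -/
theorem exists_sigma (hi : NIso p a g) (hQ : GH p 1 (l, g) Q) (x : Q ⟶ (sH ι p).obj a.Z.X) :
    ∃ (P : MM) (y : P ⟶ a.N.X) (t : (kT ι p).obj ((sE p).obj P) ≅ (Kl.ks _).obj Q), NF P g l ∧
      (kT ι p).map ((sE p).map y) ≫ kφ p a.φ = t.hom ≫ (Kl.ks _).map x := by
  obtain ⟨P, hP⟩ := NF.exists g l
  obtain ⟨t⟩ := hQ.kIso_nf C h3 hP.nf0
  obtain ⟨P', u, y, h1, h2, h3⟩ := exists_lift hi hP (t.hom ≫ (Kl.ks _).map x)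
  exact ⟨P', y, (kT ι p).mapIso (asIso ((sE p).map u)) ≪≫ t, h1, h3.trans (Category.assoc _ _ _).symm⟩

end Vale.Agent.P257.N
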