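import Vale.Agent.P257.K.KlOf
import Vale.Agent.P257.Z.Tw
import Vale.Agent.P257.E.Res
import Vale.Agent.P257.T.U
import Vale.Agent.P257.L.SCLoc

/-!
# P257, block N: the base lemma in the co-Kleisli category of the unit sphere
-/

open CategoryTheory MonoidalCategory Limits Functor.LaxMonoidal Functor.OplaxMonoidal

namespace Vale.Agent.P257.N

open Vale.Agent.P257.E Vale.Agent.P257.C Vale.Agent.P257.K Vale.Agent.P257.Z
open Vale.Agent.P251.H Vale.Agent.P251.H.StabInput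
open Vale.Agent.P251.G (LC)
open Vale.Agent.P251.G.LC (RR)
open Vale.Agent.P251.M (IsInv)
open Equiv (Perm)

set_option linter.unusedSectionVars false

universe v u v' u'

section abs

variable {ι : Type} [Finite ι] {H : Type u} [Category.{v} H] [Preadditive H] [MonoidalCategory H]
  [SymmetricCategory H] [MonoidalPreadditive H] {E : Type u'} [Category.{v'} E] [Preadditive E]
  [MonoidalCategory E] [SymmetricCategory E] [MonoidalPreadditive E]
  {SH : Action LC (Perm ι) ⥤ H} [SH.Braided] {TE : LC ⥤ E} [TE.Braided]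
  {R : H ⥤ Action E (Perm ι)} [R.Braided] {W X Y : H} (C : Ctx SH TE R)

theorem zr_swap {A : H} (h : Z.Zr (Y ⊗ A) X) : Z.Zr (A ⊗ Y) X := h.of_iso (β_ _ _) (Iso.refl _)

theorem bij_swap {A X' : H} {f : X ⟶ X'}
    (h : Function.Bijective fun x : Y ⊗ A ⟶ X => x ≫ f) : L.Bij (A ⊗ Y) f :=
  L.Bij.of_iso (T := Y ⊗ A) h (β_ _ _)

variable (SH) in
/-- the Euler class -/
noncomputable def aR : 𝟙_ H ⟶ SH.obj (RA ι) := ε SH ≫ SH.map (zro ι (pd ι))

include C in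
/-- existence of quotients by the Euler class -/
theorem div_ex' (h : Z.Zr (SH.obj (AA ι) ⊗ W) X) (x : W ⟶ X) :
    ∃ y : W ⊗ SH.obj (RA ι) ⟶ X, (ρ_ W).inv ≫ W ◁ aR SH ≫ y = x := by
  obtain ⟨q, t⟩ := C.trc (pd ι)
  obtain ⟨y, hy⟩ := t.co₁ W X ((ρ_ W).hom ≫ x) (zr_swap h _)
  exact ⟨y, (Iso.inv_comp_eq _).2 hy⟩

include C in
/-- uniqueness of quotients by the Euler class -/
theorem div_inj' (h : Z.Zr (SH.obj (AA ι) ⊗ W ⊗ sS SH) X) {y : W ⊗ SH.obj (RA ι) ⟶ X}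
    (hy : W ◁ aR SH ≫ y = 0) : y = 0 := by
  obtain ⟨q, t⟩ := C.trc (pd ι)
  obtain ⟨g, rfl⟩ := t.co₂ W X y hy
  rw [h.of_iso ((α_ _ _ _).symm ≪≫ whiskerRightIso (β_ _ _) _ ≪≫ α_ _ _ _) (Iso.refl _) g,
    comp_zero]

theorem phi_η : (C.φ _).inv ≫ R.map (η SH) = η (mapA TE _) ≫ ε R := by
  rw [Iso.inv_comp_eq, ← cancel_epi (R.map (ε SH)), ← cancel_epi (ε R), reassoc_of% C.unit,
    ← R.map_comp, Functor.Monoidal.ε_η, Functor.Monoidal.ε_η_assoc, R.map_id, Category.comp_id]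

theorem phi_δ (K L : Action LC (Perm ι)) : (C.φ _).inv ≫ R.map (δ SH K L) =
    δ (mapA TE _) K L ≫ ((C.φ K).inv ⊗ₘ (C.φ L).inv) ≫ μ R _ _ := by
  rw [Iso.inv_comp_eq, ← cancel_epi (R.map (μ SH K L)), ← cancel_epi (μ R _ _),
    reassoc_of% C.tens, ← R.map_comp, Functor.Monoidal.μ_δ, Functor.Monoidal.μ_δ_assoc, R.map_id,
    tensorHom_comp_tensorHom_assoc, Iso.hom_inv_id, Iso.hom_inv_id, id_tensorHom_id,
    Category.comp_id, Category.id_comp]

theorem phi_map {K L : Action LC (Perm ι)} (k : K ⟶ L) :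
    (C.φ K).inv ≫ R.map (SH.map k) = (mapA TE _).map k ≫ (C.φ L).inv := by
  rw [Iso.inv_comp_eq, ← reassoc_of% C.nat, Iso.hom_inv_id, Category.comp_id]

variable [Nontrivial ι] [ComonObj (SH.obj (AA ι))]

/-- the comonoid structure is induced by the diagonal -/
structure Diag (SH : Action LC (Perm ι) ⥤ H) [SH.Braided] [ComonObj (SH.obj (AA ι))] : Prop where
  counit : ComonObj.counit (X := SH.obj (AA ι)) = SH.map ComonObj.counit ≫ η SH
  comul : ComonObj.comul (X := SH.obj (AA ι)) = SH.map ComonObj.comul ≫ δ SH _ _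

variable (hd : Diag SH) (i : ι)

omit [Preadditive E] [MonoidalPreadditive E] in
theorem vx_aux {K : LC} {V V' : E} {p : 𝟙_ LC ⟶ K} {d : K ⟶ K ⊗ K}
    (e : p ≫ d = (λ_ _).inv ≫ (p ⊗ₘ p)) (φ : TE.obj K ⟶ V) (m : V ⊗ V ⟶ V') :
    (ε TE ≫ TE.map p) ≫ TE.map d ≫ δ TE K K ≫ (φ ⊗ₘ φ) ≫ m =
      (λ_ _).inv ≫ ((ε TE ≫ TE.map p) ≫ φ ⊗ₘ (ε TE ≫ TE.map p) ≫ φ) ≫ 𝟙 _ ≫ m := by
  rw [Category.assoc, ← TE.map_comp_assoc, e, TE.map_comp_assoc, ← δ_natural_assoc,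
    ← tensorHom_comp_tensorHom, ← tensorHom_comp_tensorHom,
    tensorHom_def' (ε TE), Category.assoc, Category.assoc, Category.assoc,
    ← leftUnitor_inv_naturality_assoc, Functor.Monoidal.map_leftUnitor_inv]
  simp only [Category.assoc, Functor.Monoidal.μ_δ_assoc, Category.id_comp]

/-- a vertex of the unit sphere -/
noncomputable def vx' : Kl.Vtx (SH.obj (AA ι)) (R ⋙ Action.forget E (Perm ι)) where
  v := (ε TE ≫ TE.map (pA i)) ≫ (C.φ (AA ι)).inv.hom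
  counit := by
    have k := congrArg Action.Hom.hom ((Category.assoc _ _ _).symm.trans
      ((congrArg (· ≫ R.map (η SH)) (phi_map C (ComonObj.counit (X := AA ι)))).trans
        ((Category.assoc _ _ _).trans (congrArg (_ ≫ ·) (phi_η C)))))
    rw [← R.map_comp, ← hd.counit] at k
    refine (Category.assoc _ _ _).trans ((congrArg (_ ≫ ·) k).trans ?_)
    change (ε TE ≫ TE.map (pA i)) ≫ TE.map (toPt _ (Fl ι True (pd ι))).hom ≫ η TE ≫ (ε R).hom =
      𝟙 _ ≫ (ε R).hom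
    rw [Category.assoc, ← TE.map_comp_assoc, pA_toPt, TE.map_id, Category.id_comp,
      Functor.Monoidal.ε_η_assoc, Category.id_comp]
  comul := by
    have k := congrArg Action.Hom.hom ((Category.assoc _ _ _).symm.trans
      ((congrArg (· ≫ R.map (δ SH _ _)) (phi_map C (ComonObj.comul (X := AA ι)))).trans
        ((Category.assoc _ _ _).trans (congrArg (_ ≫ ·) (phi_δ C _ _)))))
    rw [← R.map_comp, ← hd.comul] at k
    refine (Category.assoc _ _ _).trans ((congrArg (_ ≫ ·) k).trans ?_)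
    exact vx_aux (TE := TE) (p := pA i) (d := (T.gDiag _ (Fl ι True (pd ι))).hom)
      (LC.hom_ext fun _ => rfl) (C.φ (AA ι)).inv.hom (μ R _ _).hom

theorem vx_lift' (f : SH.obj (AA ι) ⊗ Y ⟶ X) :
    (vx' C hd i).lift.map (Kl.of f) = C.ev (pA i) ((β_ _ _).hom ≫ f) := by
  have k := congrArg Action.Hom.hom (Functor.LaxBraided.braided (F := R) Y (SH.obj (AA ι)))
  rw [Action.comp_hom, Action.comp_hom, Action.β_hom_hom] at k
  refine (Kl.Vtx.lift_of _ f).trans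
    ((congrArg (_ ≫ _ ≫ ·) (congrArg (· ≫ _) (Category.id_comp _))).trans (Eq.symm ?_))
  rw [Ctx.ev, atPt, Ctx.rs, Ctx.cl_hom, R.map_comp, Action.comp_hom, Action.comp_hom,
    Action.comp_hom, Category.assoc, reassoc_of% k, Action.whiskerLeft_hom]
  have key : ∀ {A B V W : E} (p : 𝟙_ E ⟶ A) (q : A ⟶ B) (r : B ⊗ V ⟶ W),
      (ρ_ V).inv ≫ V ◁ p ≫ V ◁ q ≫ (β_ V B).hom ≫ r = (λ_ V).inv ≫ (p ≫ q) ▷ V ≫ r := by
    intros
    simp
  exact key _ _ _

variable [DecidableEq ι] [R.Additive] [IsInv (sS SH)] [IsInv (SH.obj (VA ι))] [IsInv (TE.obj RR)]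
  (h3 : 3 ≤ Nat.card ι) {e : ℤˣ}
include h3

theorem bij_lift' (hY : Sg e (R.obj Y)) (hX : Sg e (R.obj X)) : Function.Bijective
    ((vx' C hd i).lift.map : ((Kl.ks (SH.obj (AA ι))).obj Y ⟶ (Kl.ks _).obj X) → _) := by
  rw [show ((vx' C hd i).lift.map : ((Kl.ks (SH.obj (AA ι))).obj Y ⟶ (Kl.ks _).obj X) → _) = _ from
    funext fun f => vx_lift' C hd i (Kl.un f)]
  exact (C.bij_ev h3 hY hX i).comp
    ((isIso_iff_coyoneda_map_bijective (β_ Y (SH.obj (AA ι))).hom).1 inferInstance X)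

theorem exists_klIso' (hY : Sg e (R.obj Y)) (hX : Sg e (R.obj X))
    (u : (R.obj Y).V ≅ (R.obj X).V) : ∃ t : (Kl.ks (SH.obj (AA ι))).obj Y ≅ (Kl.ks _).obj X,
      (vx' C hd i).lift.map t.hom = u.hom :=
  exists_iso_of_map (vx' C hd i).lift u (bij_lift' C hd i h3 hY hX).2 (bij_lift' C hd i h3 hX hY).2
    (bij_lift' C hd i h3 hY hY).1 (bij_lift' C hd i h3 hX hX).1

end abs

section conc

variable {M : Type u} [Category.{v} M] [MonoidalCategory M] [SymmetricCategory M]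
  [MonoidalClosed M] [HasZeroMorphisms M] [HasColimitsOfSize.{0, 0} M] [StabInput M]
  {ι : Type} [Finite ι]

variable (ι) in
/-- the unit sphere in the equivariant stable category -/
noncomputable abbrev Sh (D : Stab (Action M (Perm ι))) : SC D := (st D).obj ((JA _ M).obj (AA ι))

variable (ι) in
/-- the sphere of the reduced permutation representation -/
noncomputable abbrev Rh (D : Stab (Action M (Perm ι))) : SC D := (st D).obj ((JA _ M).obj (RA ι))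

variable (ι M) in
/-- the Euler class -/
noncomputable def aM : 𝟙_ (Action M (Perm ι)) ⟶ (JA _ M).obj (RA ι) :=
  ε (JA _ M) ≫ (JA _ M).map (zro ι (pd ι))

variable (ι) in
/-- the Euler class -/
noncomputable def aH (D : Stab (Action M (Perm ι))) : 𝟙_ (SC D) ⟶ Rh ι D := (st D).map (aM M ι)

theorem aH_eq (D : Stab (Action M (Perm ι))) : aH ι D = aR (JA _ M ⋙ st D) :=
  ((st D).map_comp _ _).trans (congrArg (· ≫ _) (Category.id_comp _).symm)

noncomputable instance (D : Stab (Action M (Perm ι))) : ComonObj ((JA _ M ⋙ st D).obj (AA ι)) :=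
  inferInstanceAs (ComonObj (Sh ι D))

theorem diag (D : Stab (Action M (Perm ι))) : Diag (JA _ M ⋙ st D) where
  counit := (st_counit D _).trans (((st D).map_comp _ _).trans
    (congrArg (_ ≫ ·) (Category.comp_id _).symm))
  comul := (st_comul D _).trans (((st D).map_comp _ _).trans
    (congrArg (_ ≫ ·) (Category.comp_id _).symm))

variable {D : Stab M} {U : Action M (Perm ι)} {a : U ⟶ 𝟙_ _} {ha : Rot a}
  [IsIso ((st D).map a.hom)] (C : Ctx (JA _ M ⋙ st (DX D a ha)) (J M ⋙ st D) (rsA D a ha))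
  {W X Y : SC (DX D a ha)}

instance : IsInv ((J M ⋙ st D).obj RR) := IsInv.of_inverse' (SC.lamIso D)

/-- the two models of the circle -/
noncomputable def sSIso (D : Stab (Action M (Perm ι))) : sS (JA _ M ⋙ st D) ≅ SC.SS D :=
  (st D).mapIso (mapATriv _ (J M) RR)

instance (D : Stab (Action M (Perm ι))) : IsInv (sS (JA _ M ⋙ st D)) :=
  IsInv.of_iso (sSIso D).symm

include C

theorem div_ex (h : Z.Zr (Sh ι _ ⊗ W) X) (x : W ⟶ X) :
    ∃ y : W ⊗ Rh ι _ ⟶ X, (ρ_ W).inv ≫ W ◁ aH ι _ ≫ y = x := by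
  rw [aH_eq]
  exact div_ex' C h x

theorem div_inj (h : Z.Zr (Sh ι _ ⊗ W ⊗ SC.SS _) X) {y : W ⊗ Rh ι _ ⟶ X}
    (hy : W ◁ aH ι _ ≫ y = 0) : y = 0 := by
  rw [aH_eq] at hy
  exact div_inj' C (h.of_iso (whiskerLeftIso _ (whiskerLeftIso _ (sSIso _).symm)) (Iso.refl _)) hy

theorem obs_gen (h : ∀ n, n + 2 ≤ Nat.card ι →
    Z.Zr ((st D).obj Y.obj.V ⊗ tpow (SC.SS D) n) ((st D).obj X.obj.V)) : Z.Zr (Sh ι _ ⊗ Y) X :=
  zr_swap (C.obs h)

theorem obs_kl (T : SC D) (X : Action M (Perm ι))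
    (h : ∀ n, Z.Zr (T ⊗ tpow (SC.SS D) n) ((st D).obj X.V)) :
    Z.Zr (Sh ι _ ⊗ (tau D a ha).obj T) ((st (DX D a ha)).obj X) :=
  obs_gen C fun n _ => h n

variable [Nontrivial ι] (i : ι)

/-- a vertex of the unit sphere -/
noncomputable def vx : Kl.Vtx (Sh ι (DX D a ha)) (rsA D a ha ⋙ Action.forget _ (Perm ι)) :=
  vx' C (diag _) i

theorem vx_lift_ks (f : Y ⟶ X) :
    (vx C i).lift.map ((Kl.ks _).map f) = ((rsA D a ha).map f).hom := Kl.Vtx.lift_ks _ f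

theorem vx_lift_tau {A B : SC D} (f : A ⟶ B) :
    (vx C i).lift.map ((Kl.ks _).map ((tau D a ha).map f)) = f :=
  (vx_lift_ks C i _).trans (rsA_tau_hom D a ha f)

variable [DecidableEq ι] [IsInv ((JA _ M ⋙ st (DX D a ha)).obj (VA ι))] (h3 : 3 ≤ Nat.card ι)
  {e e' : ℤˣ}
include h3

theorem bij_lift (hY : Sg e ((rsA D a ha).obj Y)) (hX : Sg e ((rsA D a ha).obj X)) :
    Function.Bijective ((vx C i).lift.map : ((Kl.ks (Sh ι _)).obj Y ⟶ (Kl.ks _).obj X) → _) :=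
  bij_lift' C (diag _) i h3 hY hX

/-- **TRIV** -/
theorem exists_klIso (hY : Sg e ((rsA D a ha).obj Y)) (hX : Sg e ((rsA D a ha).obj X))
    (u : (st D).obj Y.obj.V ≅ (st D).obj X.obj.V) :
    ∃ t : (Kl.ks (Sh ι _)).obj Y ≅ (Kl.ks _).obj X, (vx C i).lift.map t.hom = u.hom :=
  exists_klIso' C (diag _) i h3 hY hX u

omit i

theorem zr_St {j : ℕ} (h1 : 2 ≤ j) (h2 : j + 2 ≤ Nat.card ι) (hY : Sg e ((rsA D a ha).obj Y))
    (hX : Sg e' ((rsA D a ha).obj X)) :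
    Z.Zr (Sh ι _ ⊗ Y) (X ⊗ (st _).obj ((JA _ M).obj (SA ι False j))) :=
  zr_swap (C.zr_A_tgt h3 h1 h2 hY hX)

theorem zr_Fl {j : ℕ} (h1 : 1 ≤ j) (h2 : j + 2 ≤ Nat.card ι) (hY : Sg e ((rsA D a ha).obj Y))
    (hX : Sg (-e) ((rsA D a ha).obj X)) :
    Z.Zr (Sh ι _ ⊗ Y) (X ⊗ (st _).obj ((JA _ M).obj (FA ι False j))) :=
  zr_swap (C.zr_F h3 h1 h2 hY hX)

theorem bij_fold (hY : Sg e ((rsA D a ha).obj Y)) (hX : Sg (-e) ((rsA D a ha).obj X)) :
    L.Bij (Sh ι _ ⊗ Y) (X ◁ fld (JA _ M ⋙ st (DX D a ha))) :=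
  bij_swap (C.bij_fld h3 hY hX)

theorem bij_trf [Fintype ι] {τ : 𝟙_ _ ⟶ (JA _ M ⋙ st (DX D a ha)).obj (DA ι)} (hτ : C.IsTau τ)
    (hY : Sg e ((rsA D a ha).obj Y)) (hX : Sg e ((rsA D a ha).obj X)) :
    L.Bij (Sh ι _ ⊗ Y) ((ρ_ X).inv ≫ X ◁ τ) :=
  bij_swap (C.bij_tau h3 hτ hY hX)

end conc

end Vale.Agent.P257.N
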