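import Vale.Agent.P257.N.Good

/-!
# P257, block N: the two kinds of steps

* `UN.sigma`: killing a class of `Z` which is detected by a class of `N`;
* `UN.kappa`: making a stably trivial map strictly null homotopic.
-/

open CategoryTheory MonoidalCategory Limits Functor.LaxMonoidal Functor.OplaxMonoidal

namespace Vale.Agent.P257.N

open Vale.Agent.P251.H Vale.Agent.P251.H.StabInput
open Vale.Agent.P257.A Vale.Agent.P257.T Vale.Agent.P257.K
open Vale.Agent.P257.M Vale.Agent.P257.C Vale.Agent.P257.W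
open Vale.Agent.P257.E (triv tt tt_nat isPushout_hom tau tau_st DX Rot)
open Vale.Agent.P257.F (DH sH RH)
open Equiv (Perm)

set_option linter.unusedSectionVars false

universe v u

section gen

variable {M : Type u} [Category.{v} M] [MonoidalCategory M] [SymmetricCategory M]
  [MonoidalClosed M] [HasZeroMorphisms M] [HasColimitsOfSize.{0, 0} M] [StabInput M]

theorem isZero_tensor {P : M} (h : IsZero P) (X : M) : IsZero (P ⊗ X) :=
  (tensorRight X).map_isZero h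

theorem sw_tt {U : M} (l : U ⟶ 𝟙_ M) (S X : M) : Kl.sw S U X ≫ tt l (S ⊗ X) = S ◁ tt l X := by
  rw [tt, tt, ← Category.assoc, ← Kl.sw_nat_left, Category.assoc, MonoidalCategory.whiskerLeft_comp]
  simp [Kl.sw]

theorem exists_tt_null {D : Stab M} {Y Z : M} {x : Y ⟶ Z} (h : (st D).map x = 0) :
    ∃ (k : ℕ) (χ : (D.pw k (𝟙_ M) ⊗ Y) ⊗ CI M ⟶ Z),
      coneBase _ ≫ χ = D.tk k (𝟙_ M) ▷ Y ≫ (λ_ Y).hom ≫ x := by
  have key : ∀ k : ℕ, ∃ e : D.pw k (𝟙_ M) ⊗ Y ⟶ D.pw k Y,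
      e ≫ D.tk k Y = D.tk k (𝟙_ M) ▷ Y ≫ (λ_ Y).hom := fun k => by
    induction k with
    | zero => exact ⟨(λ_ Y).hom, by simp⟩
    | succ k ih =>
      obtain ⟨e, he⟩ := ih
      refine ⟨(α_ _ _ _).hom ≫ D.U ◁ e, ?_⟩
      rw [D.tk_succ, D.tk_succ, Category.assoc, D.t_nat_assoc, he, comp_whiskerRight,
        Category.assoc, ← Category.assoc]
      congr 1
      simp [Stab.t]
  obtain ⟨k, χ, hχ⟩ := exists_null h
  obtain ⟨e, he⟩ := key k
  exact ⟨k, e ▷ _ ≫ χ, by rw [coneBase_naturality_assoc, hχ, reassoc_of% he]⟩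

theorem st_cone_zero (D : Stab M) {X Z : M} (χ : X ⊗ CI M ⟶ Z) :
    (st D).map (coneBase X ≫ χ) = 0 := by
  rw [Functor.map_comp, SC.st_null (mHtpy_zero_of_cone χ), comp_zero]

variable {G : Type} [Group G] (D : Stab M)

variable (G) in
/-- the structure map with the trivial action -/
noncomputable def lamU : (triv G).obj D.U ⟶ 𝟙_ (Action M G) := (triv G).map D.lam ≫ η (triv G)

instance {U : Action M G} (a : U ⟶ 𝟙_ _) (ha : Rot a) :
    IsIso ((st (DX D a ha)).map (lamU G D)) := by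
  rw [lamU, Functor.map_comp, ← tau_st]
  infer_instance

variable {S Y : Action M G} {A : M}

/-- the stabilisation of a strict map -/
noncomputable def stb (e : (uL S).obj A ⟶ Y) : (uL S).obj (D.U ⊗ A) ⟶ (triv G).obj D.U ⊗ Y :=
  S ◁ δ (triv G) D.U A ≫ Kl.sw S _ _ ≫ (triv G).obj D.U ◁ e

theorem stb_tt (e : (uL S).obj A ⟶ Y) :
    stb D e ≫ tt (lamU G D) Y = (uL S).map (D.t A) ≫ e := by
  rw [stb, Category.assoc, Category.assoc, tt_nat, ← Category.assoc, ← Category.assoc]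
  refine congrArg (· ≫ e) ?_
  rw [Category.assoc, sw_tt, ← MonoidalCategory.whiskerLeft_comp]
  refine congrArg (S ◁ ·) (Action.hom_ext _ _ ?_)
  simp [tt, lamU, Stab.t]

variable [HasFix M] [ComonObj S] [IsCommComonObj S] {B : CommMon M}

/-- enlarging the equivariant algebra -/
noncomputable def NZ.ext (a : NZ S B) {Z : CommMon (Action M G)} (z : a.Z ⟶ Z) : NZ S B where
  N := a.N
  Z := Z
  β := a.β
  γ := a.γ ≫ z
  Φ := a.Φ ≫ (uR S).mapCommMon.map z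
  w := by rw [reassoc_of% a.w, uOf_comp]

/-- the inclusion -/
noncomputable def NZ.extHom (a : NZ S B) {Z : CommMon (Action M G)} (z : a.Z ⟶ Z) :
    NZ.Hom (𝟙 B) a (a.ext z) where
  n := 𝟙 a.N
  z := z
  hβ := (Category.comp_id _).trans (Category.id_comp _).symm
  hγ := by rw [trivMap_id, Category.id_comp]; rfl
  hΦ := (Category.id_comp _).symm

/-- attaching a cell to the equivariant algebra only -/
noncomputable def NZ.extStep (a : NZ S B) {Z : CommMon (Action M G)} {z : a.Z ⟶ Z}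
    {y : Y ⟶ a.Z.X} {ξ : Y ⊗ CI _ ⟶ Z.X} (h : IsAttach z y ξ) (hA : IsZero A) :
    NZ.Step (0 : (uL S).obj A ⟶ Y) a (a.ext z) :=
  have k : IsZero ((uL S).obj A) := by
    rw [IsZero.iff_id_eq_zero] at hA ⊢
    rw [← (uL S).map_id, hA, ten_map_zero]
  ⟨a.extHom z, 0, 0, y, ξ, isAttach_zero hA _, h, k.eq_of_src _ _,
    (isZero_tensor k _).eq_of_src _ _⟩

end gen

variable {ι : Type} [Finite ι] [Nontrivial ι] {p : ℕ} [hp : Fact p.Prime] [Fact (Nat.card ι = p)]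
  {B : CommMon MM} {P Lm W : ℤ} {a : NZ (SM ι) B} {X Y Q : Action MM (Perm ι)} {r : ℤ}

theorem posT_po {A X Y Z : Action MM (Perm ι)} {f : A ⟶ X} {g : A ⟶ Y} {i : X ⟶ Z} {j : Y ⟶ Z}
    (h : IsPushout f g i j) (_ : PosT A.V r) (hX : PosT X.V r) (hY : PosT Y.V r) : PosT Z.V r :=
  Supp.of_isPushout (isPushout_hom h) hX hY

theorem posT_I (X : Action MM (Perm ι)) (h : PosT X.V r) : PosT (X ⊗ I _).V r :=
  V.supp_tensor_J V.wT_mono h _

theorem posT_uL {A : MM} (h : PosT A r) : PosT ((uL (SM ι)).obj A).V r := by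
  simpa using V.posT_tensor (V.posT_J (Z.AA ι).V) h

theorem posT_U (h : PosT X.V r) : PosT ((triv _).obj (De p).U ⊗ X).V r := by
  simpa using V.posT_tensor ((NF.U (p := p)).posT le_rfl) h

theorem hv_U (X : Action MM (Perm ι)) : HV ((triv _).obj (De p).U ⊗ X).V :=
  (NF.U (p := p)).hv.tensor _

theorem kφ_stb {A : MM} (e : (uL (SM ι)).obj A ⟶ Y) :
    kφ p (stb (De p) e) ≫ (kP ι p).map (tt (lamU _ (De p)) Y) =
      (kT ι p).map ((sE p).map ((De p).t A)) ≫ kφ p e := by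
  rw [← kf_comp, stb_tt, kf_map]

instance (Y : Action MM (Perm ι)) : IsIso ((kP ι p).map (tt (lamU _ (De p)) Y)) :=
  inferInstanceAs (IsIso ((Kl.ks _).map ((sH ι p).map (tt (lamU _ (De p)) Y))))

variable (C : CX ι p) (hP : P < p)
include C hP

/-- **The step `σ`.** -/
theorem UN.sigma (h : UN p P Lm a W) {c : Lam} {w k : ℤ} {A : MM} (hA : NF A (c, w) k)
    (hk : Even k) (hw : 1 ≤ w) (hc : 0 ≤ ell c) (hQ : PosT Q.V w)
    (g : (sH ι p).obj Q ⟶ (sH ι p).obj a.Z.X) (y : A ⟶ a.N.X)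
    (t : (kT ι p).obj ((sE p).obj A) ≅ (kP ι p).obj Q)
    (ht : (kT ι p).map ((sE p).map y) ≫ kφ p a.φ = t.hom ≫ (Kl.ks _).map g) :
    ∃ (b : NZ (SM ι) B) (f : NZ.Hom (𝟙 B) a b) (A' : MM) (u : A' ⟶ A) (χ : A' ⊗ CI MM ⟶ b.N.X),
      NF A' (c, w) k ∧ IsIso ((sE p).map u) ∧ IsAttach f.n (u ≫ y) χ ∧ UN p P Lm b (W + w) ∧
        g ≫ (sH ι p).map (ah f.z) = 0 := by
  obtain ⟨Y, e, z, j, h1, h2, h3, h4⟩ := exists_fat (D := DH ι p) (A := (uL (SM ι)).obj A)
    (Kl.un t.hom) g ((uL (SM ι)).map y ≫ a.φ)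
    ((congrArg Kl.un ((kf_map _ _ _ y a.φ).trans ht)).trans (Kl.un_comp_ks _ _))
    (fun X => PosT X.V w) (fun _ => posT_UH) posT_I posT_po (posT_uL (hA.posT le_rfl)) hQ
  have : IsIso (kφ p e) := by
    rw [show kφ p e = t.hom ≫ (Kl.ks _).map j.hom from
      Kl.hom_ext (h2.trans (Kl.un_comp_ks _ _).symm)]
    infer_instance
  have : IsIso (kφ p (stb (De p) e)) := IsIso.of_isIso_fac_right (kφ_stb e)
  obtain ⟨b, s, hx, hy⟩ := a.exists_step (e := stb (De p) e) (x := (De p).t A ≫ y)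
    (y := tt (lamU _ (De p)) Y ≫ z) (by
      rw [← Category.assoc, stb_tt, Category.assoc, h1, Functor.map_comp, Category.assoc])
  refine ⟨b, s.hom, _, (De p).t A, s.χ, .U_tensor hA.nf0, inferInstance, hx ▸ s.attN,
    UNZ.step h s fun _ _ _ _ _ _ s' _ _ _ _ _ l hB => (l hB).sigma C hP s' (.U_tensor hA.nf0) hk
      hw hc (hv_U _) (posT_U (V.posT_mono h4 hw)), ?_⟩
  have h5 := st_cone_zero (DH ι p) s.ξ
  rw [s.attZ.w, hy, Category.assoc, Functor.map_comp, Preadditive.IsIso.comp_left_eq_zero] at h5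
  rw [← h3, Category.assoc, ← Functor.map_comp, h5, comp_zero]

/-- **The step `κ`.** -/
theorem UN.kappa (h : UN p P Lm a W) (x : Y ⟶ a.Z.X) (hx : (sH ι p).map x = 0) (hv : HV Y.V)
    (hY : PosT Y.V 1) : ∃ (Z : CommMon (Action MM (Perm ι))) (z : a.Z ⟶ Z) (χ : Y ⊗ CI _ ⟶ Z.X),
      coneBase Y ≫ χ = x ≫ ah z ∧ UN p P Lm (a.ext z) W := by
  obtain ⟨k, ζ, hζ⟩ := exists_tt_null hx
  have H := isPushout_cone_whiskerRight ((DH ι p).tk k (𝟙_ _)) Y
  obtain ⟨Z, z, ξ, hz⟩ := exists_isAttach (H.desc ζ _ hζ)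
  refine ⟨Z, z, ((λ_ Y).inv ≫ ci _ ▷ Y) ▷ _ ≫ ξ, by
    rw [coneBase_naturality_assoc, hz.w, Category.assoc, H.inr_desc_assoc, Category.assoc,
      Iso.inv_hom_id_assoc], UNZ.step h (a.extStep hz isZero_empty)
    fun _ _ _ _ _ _ s' _ _ _ _ _ l hB => (l hB).kappa C hP s' isZero_empty (hv.tensor' _) ?_ ?_⟩
  · simpa using V.posT_tensor (posT_coneV ((DH ι p).tk k (𝟙_ _))
      (pr_pw (Pr := fun X : Action MM (Perm ι) => PosT X.V 0) (fun _ => posT_UH) V.posT_unit k) V.posT_unit) hY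
  · exact (tensorRight ((sE p).obj Y.V)).map_isZero (isZero_coneV ((DH ι p).tk k (𝟙_ _)))

end Vale.Agent.P257.N
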