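import Vale.Agent.P257.N.Step
import Vale.Agent.P257.F.Cop

/-!
# P257, block N: auxiliary results for the base level

* `exists_faces`: the two faces of a double cone give equivalent maps out of the cone;
* `NZ.bot`: the level `(𝟙, Z)`, `unz_bot`.
-/

open CategoryTheory MonoidalCategory Limits

namespace Vale.Agent.P257.N

open Vale.Agent.P251.H Vale.Agent.P251.H.StabInput
open Vale.Agent.P257.A Vale.Agent.P257.T Vale.Agent.P257.K Vale.Agent.P257.L
open Vale.Agent.P257.M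
open Vale.Agent.P257.E (triv)

set_option linter.unusedSectionVars false

universe v u

variable {M : Type u} [Category.{v} M] [MonoidalCategory M] [SymmetricCategory M]
  [MonoidalClosed M] [HasZeroMorphisms M] [HasColimitsOfSize.{0, 0} M] [StabInput M]
  (D : Stab M) {X X' Y Y' Z : M} {B B' C : CommMon M}

theorem isIso_ci {f : X ⟶ Y} (h : IsZero ((st D).obj X)) : IsIso ((st D).map (ci f)) :=
  isIso_of_tri ((scTri D).rot (scTri_cone D (isCone_cone f))) ((tensorRight _).map_isZero h)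

theorem isIso_coneMap {f : X ⟶ Y} {f' : X' ⟶ Y'} (a : X ⟶ X') (b : Y ⟶ Y') (w : f ≫ b = a ≫ f')
    [IsIso ((st D).map a)] [IsIso ((st D).map b)] : IsIso ((st D).map (coneMap a b w)) :=
  TriStr.isIso₃ (scTri_cone D (isCone_cone f)) (scTri_cone D (isCone_cone f'))
    (by rw [← Functor.map_comp, w, Functor.map_comp])
    (by rw [← Functor.map_comp, ci_coneMap, Functor.map_comp])
    (by rw [← SC.st_whiskerRight, ← Functor.map_comp, ← coneMap_cq, Functor.map_comp])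

theorem exists_faces' {u : X ⟶ Y} {g : Y ⟶ Z} (w : (X ⊗ CI M) ⊗ CI M ⟶ Z)
    (h1 : coneBase X ≫ coneBase X ▷ CI M ≫ w = u ≫ g)
    (h2 : coneBase X ≫ coneBase (X ⊗ CI M) ≫ w = u ≫ g) :
    ∃ (K : M) (f₁ f₂ : cone u ⟶ K) (k : K ⟶ Z), IsIso ((st D).map f₁) ∧ IsIso ((st D).map f₂) ∧
      f₁ ≫ k = cdesc _ g h1 ∧ f₂ ≫ k = cdesc _ g h2 := by
  have e1 : coneBase X ≫ coneBase X ▷ CI M ≫ ck (ck u) = u ≫ ci u ≫ ci (ck u) := by
    rw [coneBase_naturality_assoc, coneBase_ck, coneBase_ck_assoc]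
  have e2 : coneBase (X ⊗ CI M) ≫ (swapCI X).hom ≫ ck (ck u) = ck u ≫ cdesc _ _ e1 := by
    rw [coneBase_swapCI_assoc, ck_cdesc]
  have e3 : cdesc _ _ e2 ≫ cdesc _ _ e2 = 𝟙 _ := by
    refine cone_ext ?_ (cone_ext ?_ ?_)
    · rw [ck_cdesc_assoc, Category.assoc, ck_cdesc, reassoc_of% swapCI_swapCI, Category.comp_id]
    · rw [ci_cdesc_assoc, ck_cdesc_assoc, Category.assoc, ck_cdesc,
        coneBase_whiskerRight_swapCI_assoc, coneBase_ck, Category.comp_id]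
    · rw [ci_cdesc_assoc, ci_cdesc_assoc, Category.assoc, ci_cdesc, ci_cdesc, Category.comp_id]
  have : IsIso (cdesc _ _ e2) := ⟨_, e3, e3⟩
  have h := isIso_ci D (f := ck u) (SC.isZero_st_of_mContr (mcontr_tensor_CI X))
  refine ⟨_, cdesc _ _ e1, ci (ck u), cdesc w (cdesc _ g h2) (ck_cdesc _ _ _ _).symm, ?_, h,
    cone_ext ?_ ?_, ci_cdesc _ _ _ _⟩
  · rw [← ci_cdesc _ _ _ e2, Functor.map_comp]
    infer_instance
  · rw [ck_cdesc_assoc, Category.assoc, ck_cdesc, ck_cdesc]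
  · rw [ci_cdesc_assoc, Category.assoc, ci_cdesc, ci_cdesc, ci_cdesc]

theorem exists_faces {x : X ⟶ B.X} {i : B ⟶ B'} (w : (X ⊗ CI M) ⊗ CI M ⟶ B'.X)
    {χ₁ χ₂ : X ⊗ CI M ⟶ B'.X} (e1 : coneBase X ▷ CI M ≫ w = χ₁) (e2 : coneBase _ ≫ w = χ₂)
    (h1 : coneBase X ≫ χ₁ = x ≫ ah i) (h2 : coneBase X ≫ χ₂ = x ≫ ah i) :
    ∃ (K : M) (f₁ f₂ : cone (actL x) ⟶ K) (k : K ⟶ B'.X), IsIso ((st D).map f₁) ∧
      IsIso ((st D).map f₂) ∧ f₁ ≫ k = c1 h1 ∧ f₂ ≫ k = c1 h2 := by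
  have k1 : coneBase (B.X ⊗ X) ▷ CI M ≫ (α_ _ _ _).hom ▷ CI M ≫ (α_ _ _ _).hom ≫
      (ah i ⊗ₘ w) ≫ MonObj.mul = (α_ _ _ _).hom ≫ (ah i ⊗ₘ χ₁) ≫ MonObj.mul := by
    rw [← comp_whiskerRight_assoc, coneBase_assoc, associator_naturality_middle_assoc,
      ← id_tensorHom, tensorHom_comp_tensorHom_assoc, e1, Category.id_comp]
  have k2 : coneBase ((B.X ⊗ X) ⊗ CI M) ≫ (α_ _ _ _).hom ▷ CI M ≫ (α_ _ _ _).hom ≫
      (ah i ⊗ₘ w) ≫ MonObj.mul = (α_ _ _ _).hom ≫ (ah i ⊗ₘ χ₂) ≫ MonObj.mul := by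
    rw [coneBase_naturality_assoc, reassoc_of% coneBase_assoc, ← id_tensorHom,
      tensorHom_comp_tensorHom_assoc, e2, Category.id_comp]
  obtain ⟨K, f₁, f₂, k, a1, a2, a3, a4⟩ := exists_faces' D (u := actL x) (g := ah i) _
    (by rw [k1, ← ck_c1 h1, coneBase_ck_assoc, ci_c1])
    (by rw [k2, ← ck_c1 h2, coneBase_ck_assoc, ci_c1])
  exact ⟨K, f₁, f₂, k, a1, a2,
    a3.trans (cone_ext (by rw [ck_cdesc, k1, ck_c1]) (by rw [ci_cdesc, ci_c1])),
    a4.trans (cone_ext (by rw [ck_cdesc, k2, ck_c1]) (by rw [ci_cdesc, ci_c1]))⟩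

theorem actL_one (f : X ⟶ 𝟙_ M) (B : CommMon M) :
    actL (f ≫ MonObj.one (X := B.X)) = B.X ◁ f ≫ (ρ_ _).hom := by
  rw [actL, MonoidalCategory.whiskerLeft_comp, Category.assoc, MonObj.mul_one]

theorem exists_c1_one {f : X ⟶ 𝟙_ M} {χ : X ⊗ CI M ⟶ C.X}
    (h : coneBase X ≫ χ = f ≫ MonObj.one (X := C.X))
    (i : B ⟶ B') (j : C ⟶ B')
    (w : coneBase X ≫ χ ≫ ah j = (f ≫ MonObj.one (X := B.X)) ≫ ah i) :
    ∃ e : cone (actL (f ≫ MonObj.one (X := B.X))) ≅ B.X ⊗ cone f,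
      e.hom ≫ B.X ◁ cdesc χ MonObj.one h ≫ ah (cdsc i j) = c1 w := by
  have H : IsPushout (coneBase (B.X ⊗ X)) (actL (f ≫ MonObj.one (X := B.X)))
      ((α_ _ _ _).hom ≫ B.X ◁ ck f) ((ρ_ _).inv ≫ B.X ◁ ci f) :=
    ((isPushout_cone f).map (tensorLeft B.X)).of_iso (Iso.refl _) (α_ _ _ _).symm (ρ_ _)
      (Iso.refl _) (by simp [← coneBase_assoc]) (by simp [actL_one]) (by simp) (by simp)
  refine ⟨(isPushout_cone _).isoIsPushout _ _ H, cone_ext ?_ ?_⟩
  · rw [IsPushout.inl_isoIsPushout_hom_assoc, ck_c1, ah_cdsc, Category.assoc,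
      ← MonoidalCategory.whiskerLeft_comp_assoc, ck_cdesc, ← id_tensorHom,
      tensorHom_comp_tensorHom_assoc, Category.id_comp]
  · rw [IsPushout.inr_isoIsPushout_hom_assoc, ci_c1, ah_cdsc, Category.assoc,
      ← MonoidalCategory.whiskerLeft_comp_assoc, ci_cdesc, ← id_tensorHom,
      tensorHom_comp_tensorHom_assoc, Category.id_comp, IsMonHom.one_hom,
      MonoidalCategory.tensorHom_def', Category.assoc, whisker_exchange_assoc, MonObj.mul_one]
    simp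

theorem isAtt_iso_comp {c : X ⟶ Y} {x : X ⟶ C.X} (β : C ⟶ B) [IsIso β] {i : B ⟶ B'}
    {χ : Y ⟶ B'.X} (h : IsAtt c (x ≫ ah β) i χ) : IsAtt c x (β ≫ i) χ := by
  refine ⟨by rw [h.w, ah_comp, Category.assoc], fun φ k w => ?_,
    fun e k => h.ext (by rwa [Category.assoc, Category.assoc, cancel_epi] at e) k⟩
  obtain ⟨ψ, h1, h2⟩ := h.desc (inv β ≫ φ) k (by
    rw [w, Category.assoc, ← ah_comp, IsIso.hom_inv_id_assoc])
  exact ⟨ψ, by rw [Category.assoc, h1, IsIso.hom_inv_id_assoc], h2⟩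

theorem ah_trivial (f : CommMon.trivial M ⟶ B) : ah f = MonObj.one (X := B.X) :=
  (Category.id_comp _).symm.trans (IsMonHom.one_hom (ah f))

variable {G : Type} [Group G]

instance : IsIso (default : CommMon.trivial _ ⟶ trivC G (CommMon.trivial M)) :=
  have : IsIso (ah (default : CommMon.trivial _ ⟶ trivC G (CommMon.trivial M))) := by
    rw [ah_trivial]
    exact inferInstanceAs (IsIso (Functor.LaxMonoidal.ε (triv G) ≫ (triv G).map (𝟙 (𝟙_ M))))
  isIso_of_ah _ (h := this)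

theorem ahL_trivial {Z : CommMon (Action M G)} (γ : trivC G (CommMon.trivial M) ⟶ Z) :
    ahL γ = Functor.OplaxMonoidal.η (triv G) ≫ MonObj.one (X := Z.X) := by
  have h := (isOpHom_ahL γ).one
  exact (Category.id_comp _).symm.trans
    ((congrArg (· ≫ ahL γ) ((triv G).map_id (𝟙_ M)).symm).trans h)

theorem isPushout_trivC {Z : CommMon (Action M G)} (γ : trivC G (CommMon.trivial M) ⟶ Z)
    (f : CommMon.trivial M ⟶ B) : IsPushout γ (trivMap G f) (cinr (trivC G B) Z) (cinl _ _) :=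
  (isPushout_cten default default).flip.of_iso (asIso default) (Iso.refl _) (Iso.refl _)
    (Iso.refl _) (Subsingleton.elim _ _) (Subsingleton.elim _ _) (by simp) (by simp)

variable [HasFix M] (S : Action M G) [ComonObj S] [IsCommComonObj S]

/-- the level `(𝟙, Z)` -/
noncomputable def NZ.bot (Z : CommMon (Action M G)) : NZ S (CommMon.trivial M) where
  N := CommMon.trivial M
  Z := Z
  β := 𝟙 _
  γ := inv (default : CommMon.trivial _ ⟶ trivC G (CommMon.trivial M)) ≫ default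
  Φ := uOf S _
  w := Category.id_comp _

theorem unz_bot (Z : CommMon (Action M G)) : UNZ (fun _ _ => True) (NZ.bot S Z) :=
  ⟨fun _ f => (NZ.bot S Z).exists_po f (IsPushout.of_horiz_isIso (f := 𝟙 _) (inr := 𝟙 _)
    ⟨(Category.id_comp _).trans (Category.comp_id _).symm⟩) (isPushout_trivC _ f),
    fun _ _ _ _ _ => trivial⟩

theorem NZ.bot_φ (Z : CommMon (Action M G)) : (NZ.bot S Z).φ =
    prS S ((triv G).obj (𝟙_ M)) ≫ Functor.OplaxMonoidal.η (triv G) ≫ MonObj.one (X := Z.X) :=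
  (tr_uOf S _).trans (congrArg (_ ≫ ·) (ahL_trivial _))

variable {S} {Z : CommMon (Action M G)} {f : CommMon.trivial M ⟶ B} {a : NZ S B}
  {k : NZ.Hom f (NZ.bot S Z) a}

theorem NZ.Hom.PO.isIso_β (h : k.PO) : IsIso a.β :=
  have : IsIso (NZ.bot S Z).β := inferInstanceAs (IsIso (𝟙 _))
  h.1.isIso_inr_of_isIso

theorem NZ.Hom.PO.isIso_cdsc (h : k.PO) : IsIso (cdsc a.γ k.z) := by
  rw [show cdsc a.γ k.z = ((isPushout_trivC _ f).isoIsPushout _ _ h.2).hom from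
    cten_ext (by rw [cinl_cdsc, IsPushout.inr_isoIsPushout_hom])
      (by rw [cinr_cdsc, IsPushout.inl_isoIsPushout_hom])]
  infer_instance

theorem isOpHom_prS (B : CommMon M) :
    IsOpHom (uL S) (Z := (trivC G B).X) (prS S ((triv G).obj B.X)) := by
  have h := (isOpNat_uPr S).isOpHom (isOpHom_ahL (𝟙 (trivC G B)))
  exact (Category.comp_id (prS S ((triv G).obj B.X))) ▸ h

end Vale.Agent.P257.N
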