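import Vale.Agent.P257.L.SCLoc
import Vale.Agent.P251.H.GoodPi
import Vale.Agent.P251.H.CofM

/-!
# P257, block N: strictification by a double mapping cylinder
-/

open CategoryTheory MonoidalCategory Limits

namespace Vale.Agent.P257.N

open Vale.Agent.P251.H Vale.Agent.P251.H.StabInput Vale.Agent.P251.M
open Vale.Agent.P257.K Vale.Agent.P257.L

universe v u

section tri

variable {C : Type u} [Category.{v} C] [MonoidalCategory C] [SymmetricCategory C] [Preadditive C]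
  [MonoidalPreadditive C] {S : C} [IsInv S] {T : TriStr S} {A B Z : C} {f : A ⟶ B} {g : B ⟶ Z}
  {q : Z ⟶ A ⊗ S}

theorem isZero_of_tri (h : T.Tri f g q) [IsIso f] : IsZero Z := by
  obtain ⟨x, hx⟩ := TriStr.co₃ h (𝟙 Z) (by
    rw [← cancel_mono (f ▷ S), Category.id_comp, TriStr.comp₃ h, zero_comp])
  rw [IsZero.iff_id_eq_zero, ← hx, (cancel_epi f).1 ((TriStr.comp₁ h).trans comp_zero.symm),
    comp_zero]

theorem isIso_of_tri (h : T.Tri f g q) (hZ : IsZero Z) : IsIso f :=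
  isIso_of_yoneda_map_bijective f fun W => ⟨fun x y e => by
    obtain ⟨w, hw⟩ := TriStr.co₄ h ((x - y) ▷ S) (by
      rw [← comp_whiskerRight, Preadditive.sub_comp, sub_eq_zero.2 e,
        MonoidalPreadditive.zero_whiskerRight])
    refine sub_eq_zero.1 (whiskerRight_inj S ?_)
    rw [← hw, hZ.eq_of_tgt w 0, zero_comp, MonoidalPreadditive.zero_whiskerRight],
    fun y => TriStr.co₂ h y (hZ.eq_of_tgt _ _)⟩

end tri

variable {M : Type u} [Category.{v} M] [MonoidalCategory M] [SymmetricCategory M]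
  [MonoidalClosed M] [HasZeroMorphisms M] [HasColimitsOfSize.{0, 0} M] [StabInput M]
  {D : Stab M} {A B Q Y Z : M}

/-- Stable isomorphisms which are h-cofibrations are stable under cobase change. -/
theorem isIso_st_of_isPushout {c : A ⟶ B} {a : A ⟶ Q} {k : B ⟶ Y} {j : Q ⟶ Y}
    (h : IsPushout c a k j) (hc : HCof c) [IsIso ((st D).map c)] : IsIso ((st D).map j) := by
  have hO := isZero_empty (M := M)
  have h1 := IsPushout.of_hasPushout j (0 : Q ⟶ (J M).obj (P251.G.LC.of Empty))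
  obtain ⟨q, t⟩ := scTri_hCof D hc hO (h.paste_vert h1)
  obtain ⟨q', t'⟩ := scTri_hCof D (HCof.of_isPushout h hc) hO h1
  exact isIso_of_tri t' (isZero_of_tri t)

instance (A : M) : IsIso ((st D).map (inc 0 A)) :=
  SC.isIso_st_of_hequiv _ (pr A) (MHtpy.of_eq (inc_pr 0 A)) (mHtpy_pr_inc A)

theorem hCof_inc (A : M) : HCof (inc 0 A) :=
  coprod.inl_desc (inc 0 A) (inc 1 A) ▸ (hCof_inl A A).comp (hCof_ends A)

/-- the free end of a mapping cylinder is an h-cofibration -/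
theorem hCof_cyl {t : A ⟶ B} {k : A ⊗ I M ⟶ Y} {e : B ⟶ Y} (h : IsPushout (inc 0 A) t k e) :
    HCof (inc 1 A ≫ k) := by
  have h1 : IsPushout (coprod.desc (inc 0 A) (inc 1 A)) (coprod.map t (𝟙 A)) k
      (coprod.desc e (inc 1 A ≫ k)) :=
    IsPushout.of_left (by rwa [coprod.inl_desc, coprod.inl_desc])
      (by ext <;> simp [h.w]) (IsPushout.of_coprod_inl_with_id t A)
  have h2 := ((hCof_inl A B).comp (HCof.of_isIso (coprod.braiding A B).hom)).comp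
    (HCof.of_isPushout h1 (hCof_ends A))
  rwa [coprod.braiding_hom, coprod.inl_desc, coprod.inr_desc] at h2

theorem pr_pw {Pr : M → Prop} (hU : ∀ X, Pr X → Pr (D.U ⊗ X)) (h : Pr A) : ∀ k, Pr (D.pw k A)
  | 0 => h
  | k + 1 => hU _ (pr_pw hU h k)

variable (Pr : M → Prop) (hU : ∀ X, Pr X → Pr (D.U ⊗ X)) (hI : ∀ X, Pr X → Pr (X ⊗ I M))
  (hpo : ∀ {W B C P : M} {f : W ⟶ B} {f' : W ⟶ C} {i : B ⟶ P} {j : C ⟶ P},
    IsPushout f f' i j → Pr W → Pr B → Pr C → Pr P) (hA : Pr A) (hQ : Pr Q)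
include hU hI hpo hA hQ

/-- The fat object, for a strict map out of `Q`. -/
theorem exists_fat' (τ : (st D).obj A ⟶ (st D).obj Q) (g : Q ⟶ Z) (y : A ⟶ Z)
    (h : (st D).map y = τ ≫ (st D).map g) :
    ∃ (Y : M) (e : A ⟶ Y) (z : Y ⟶ Z) (j : Q ⟶ Y), e ≫ z = y ∧ j ≫ z = g ∧
      IsIso ((st D).map j) ∧ (st D).map e = τ ≫ (st D).map j ∧ Pr Y := by
  obtain ⟨k, a, ha⟩ := SC.exists_frac τ
  obtain ⟨m, H, h0, h1⟩ := (SC.st_eq_iff (D.tk k A ≫ y) (a ≫ g)).1 (by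
    rw [Functor.map_comp, Functor.map_comp, ← ha, h, Category.assoc])
  have p1 := IsPushout.of_hasPushout (inc 0 _) (D.tk m _ ≫ D.tk k A)
  set k₁ := pushout.inl (inc 0 _) (D.tk m _ ≫ D.tk k A)
  set e₁ := pushout.inr (inc 0 _) (D.tk m _ ≫ D.tk k A)
  have p2 := IsPushout.of_hasPushout (inc 1 _ ≫ k₁) (D.tk m _ ≫ a)
  set k₂ := pushout.inl (inc 1 _ ≫ k₁) (D.tk m _ ≫ a)
  set j := pushout.inr (inc 1 _ ≫ k₁) (D.tk m _ ≫ a)
  have e1 : (st D).map (inc 1 _ ≫ k₁) = (st D).map (D.tk m _) ≫ (st D).map (D.tk k A) ≫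
      (st D).map e₁ := by
    rw [← Functor.map_comp, ← Functor.map_comp, ← Category.assoc, ← p1.w]
    exact (SC.st_htpy ⟨k₁, rfl, rfl⟩).symm
  have := isIso_st_of_isPushout (D := D) p1 (hCof_inc _)
  have : IsIso ((st D).map (inc 1 _ ≫ k₁)) := by
    rw [e1]
    infer_instance
  have w1 : inc 0 _ ≫ H = (D.tk m _ ≫ D.tk k A) ≫ y := h0.trans (Category.assoc _ _ _).symm
  have w2 : (inc 1 _ ≫ k₁) ≫ p1.desc H y w1 = (D.tk m _ ≫ a) ≫ g := by
    rw [Category.assoc, p1.inl_desc, Category.assoc]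
    exact h1
  have hA' := pr_pw hU (pr_pw hU hA k) m
  refine ⟨_, e₁ ≫ k₂, p2.desc _ _ w2, j, ?_, p2.inr_desc _ _ _,
    isIso_st_of_isPushout (D := D) p2 (hCof_cyl p1), ?_,
    hpo p2 hA' (hpo p1 hA' (hI _ hA') hA) hQ⟩
  · rw [Category.assoc, p2.inl_desc, p1.inr_desc]
  · rw [← cancel_epi ((st D).map (D.tk k A)), ← cancel_epi ((st D).map (D.tk m _)),
      Functor.map_comp, ← reassoc_of% e1, ← Functor.map_comp, p2.w, Functor.map_comp,
      Functor.map_comp, ← ha]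
    simp

omit hU hI hpo hA hQ in
/-- **The fat object.** -/
theorem exists_fat (τ : (st D).obj A ⟶ (st D).obj Q) (g : (st D).obj Q ⟶ (st D).obj Z)
    (y : A ⟶ Z) (h : (st D).map y = τ ≫ g) (Pr : M → Prop) (hU : ∀ X, Pr X → Pr (D.U ⊗ X))
    (hI : ∀ X, Pr X → Pr (X ⊗ I M))
    (hpo : ∀ {W B C P : M} {f : W ⟶ B} {f' : W ⟶ C} {i : B ⟶ P} {j : C ⟶ P},
      IsPushout f f' i j → Pr W → Pr B → Pr C → Pr P) (hA : Pr A) (hQ : Pr Q) :
    ∃ (Y : M) (e : A ⟶ Y) (z : Y ⟶ Z) (j : (st D).obj Q ≅ (st D).obj Y),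
      e ≫ z = y ∧ (st D).map e = τ ≫ j.hom ∧ j.hom ≫ (st D).map z = g ∧ Pr Y := by
  obtain ⟨l, g₀, hg⟩ := SC.exists_frac g
  obtain ⟨Y, e, z, j, h1, h2, h3, h4, h5⟩ := exists_fat' Pr hU hI hpo hA (pr_pw hU hQ l)
    (τ ≫ inv ((st D).map (D.tk l Q))) g₀ y (by rw [← hg, h]; simp)
  refine ⟨Y, e, z, (asIso ((st D).map (D.tk l Q))).symm ≪≫ asIso ((st D).map j), h1, ?_, ?_, h5⟩
  · rw [h4]
    simp
  · rw [Iso.trans_hom, Category.assoc, asIso_hom, ← Functor.map_comp, h2, ← hg]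
    simp

end Vale.Agent.P257.N
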