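import Vale.Agent.P257.N.NZ
import Vale.Agent.P257.K.KlOf
import Vale.Agent.P257.E.Res
import Vale.Agent.P257.L.SCLoc
import Vale.Agent.P257.M.Defs
import Vale.Agent.P257.V.Cone

/-!
# P257, block N: the five lemma for comparison maps

* `FB F T φ`: `y ↦ F y ≫ φ` is a bijection on maps out of `T`; `FB.five`;
* `kf φ`: the Kleisli map of a strict map `φ : S ⊗ triv A ⟶ X`;
* `Step.fb`: the comparison map of a step.
-/

open CategoryTheory MonoidalCategory Limits MonObj Functor.LaxMonoidal Functor.OplaxMonoidal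

namespace Vale.Agent.P257.N

open Vale.Agent.P251.H Vale.Agent.P251.H.StabInput
open Vale.Agent.P251.M (IsInv whiskerRight_bijective)
open Vale.Agent.P251.G (LC)
open Vale.Agent.P251.G.LC (RR HH)
open Vale.Agent.P257.A Vale.Agent.P257.E Vale.Agent.P257.T Vale.Agent.P257.K Vale.Agent.P257.L
open Vale.Agent.P257.M Vale.Agent.P257.C
open Vale.Agent.P257.Z (Tr)

set_option linter.unusedSectionVars false

universe v u v' u'

section abstract

variable {E : Type u} [Category.{v} E] {K : Type u'} [Category.{v'} K] (F : E ⥤ K)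

/-- `y ↦ F y ≫ φ` is a bijection on maps out of `T` -/
def FB (T : E) {A : E} {X : K} (φ : F.obj A ⟶ X) : Prop :=
  Function.Bijective fun y : T ⟶ A => F.map y ≫ φ

variable {F} {T T' A B C : E} {X Y W : K} {φ : F.obj A ⟶ X}

namespace FB

theorem inj (h : FB F T φ) {x y : T ⟶ A} (e : F.map x ≫ φ = F.map y ≫ φ) : x = y := h.1 e

theorem surj (h : FB F T φ) (y : F.obj T ⟶ X) : ∃ x : T ⟶ A, F.map x ≫ φ = y := h.2 y

theorem of_iso (h : FB F T φ) (e : T' ≅ T) : FB F T' φ := by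
  refine ⟨fun x y k => ?_, fun y => ?_⟩
  · rw [← cancel_epi e.inv]
    exact h.inj (by rw [F.map_comp, F.map_comp, Category.assoc, Category.assoc, show
      F.map x ≫ φ = F.map y ≫ φ from k])
  · obtain ⟨x, hx⟩ := h.surj (F.map e.inv ≫ y)
    exact ⟨e.hom ≫ x, by
      beta_reduce
      rw [F.map_comp, Category.assoc, hx, ← F.map_comp_assoc, e.hom_inv_id, F.map_id,
        Category.id_comp]⟩

theorem post (h : FB F T φ) {z : X ⟶ Y} (k : Bij (F.obj T) z) : FB F T (φ ≫ z) := by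
  have := Function.Bijective.comp k h
  simpa only [FB, Function.comp_def, Category.assoc] using this

theorem of_pre {u : B ⟶ A} (k : Bij T u) (h : FB F T (F.map u ≫ φ)) : FB F T φ :=
  (Function.Bijective.of_comp_iff (fun y : T ⟶ A => F.map y ≫ φ) k).1 (by
    simpa only [FB, Function.comp_def, F.map_comp, Category.assoc] using h)

variable [Preadditive E] [Preadditive K] [F.Additive]

theorem zr (h : FB F T φ) (k : Z.Zr T A) : Z.Zr (F.obj T) X := fun y => by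
  obtain ⟨x, rfl⟩ := h.surj y
  rw [k x, F.map_zero, zero_comp]

theorem eq_zero (h : FB F T φ) {x : T ⟶ A} (e : F.map x ≫ φ = 0) : x = 0 :=
  h.inj (by rw [e, F.map_zero, zero_comp])

end FB

variable [MonoidalCategory E] [MonoidalCategory K] [SymmetricCategory E] [SymmetricCategory K]
  [F.Monoidal]

theorem FB.tensor (h : FB F T φ) (P : E) [IsInv P] :
    FB F (T ⊗ P) (δ F A P ≫ φ ▷ F.obj P) := by
  have := isInv_map F P
  have h1 : Function.Bijective fun x : F.obj T ⟶ X => δ F T P ≫ x ▷ F.obj P :=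
    (Iso.homCongr (Functor.Monoidal.μIso F T P) (Iso.refl _)).bijective.comp
      (whiskerRight_bijective (F.obj P) _ _) |>.imp (fun k _ _ e => k (by simpa using e))
      (fun k y => (k y).imp fun _ e => by simpa using e)
  refine (Function.Bijective.of_comp_iff _ (whiskerRight_bijective P T A)).1 ?_
  have := h1.comp h
  simpa only [Function.comp_def, comp_whiskerRight, δ_natural_left_assoc] using this

variable [Preadditive E] [Preadditive K] [F.Additive] [MonoidalPreadditive E]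
  [MonoidalPreadditive K]

theorem FB.five {S : E} [IsInv S] {f : A ⟶ B} {g : B ⟶ C} {q : C ⟶ A ⊗ S} {f' : X ⟶ Y}
    {g' : Y ⟶ W} {q' : W ⟶ X ⊗ F.obj S} (h : Tr S f g q) (h' : Tr (F.obj S) f' g' q')
    {a : F.obj A ⟶ X} {b : F.obj B ⟶ Y} {c : F.obj C ⟶ W} (w₁ : F.map f ≫ b = a ≫ f')
    (w₂ : F.map g ≫ c = b ≫ g') (w₃ : F.map q ≫ δ F A S ≫ a ▷ F.obj S = c ≫ q')
    (e : T ≅ T' ⊗ S) (ha : FB F T a) (hb : FB F T b) (ha' : FB F T' a) (hb' : FB F T' b) :
    FB F T c := by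
  have ka := (ha'.tensor S).of_iso e
  have kb := (hb'.tensor S).of_iso e
  have w₄ : F.map (f ▷ S) ≫ δ F B S ≫ b ▷ F.obj S = (δ F A S ≫ a ▷ F.obj S) ≫ f' ▷ F.obj S := by
    rw [← δ_natural_left_assoc, ← comp_whiskerRight, w₁, comp_whiskerRight, Category.assoc]
  refine ⟨fun x y k => ?_, fun y => ?_⟩
  · rw [← sub_eq_zero]
    have k1 : F.map (x - y) ≫ c = 0 := by
      rw [F.map_sub, Preadditive.sub_comp, sub_eq_zero]
      exact k
    generalize x - y = z at k1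
    obtain ⟨u, rfl⟩ := h.ex₂.lift z (ka.eq_zero (by
      rw [F.map_comp, Category.assoc, w₃, reassoc_of% k1, zero_comp]))
    obtain ⟨s, hs⟩ := h'.ex₁.lift (F.map u ≫ b) (by
      rw [Category.assoc, ← w₂, ← F.map_comp_assoc, k1])
    obtain ⟨r, rfl⟩ := ha.surj s
    rw [← hb.inj (x := r ≫ f) (y := u) (by rw [F.map_comp, Category.assoc, w₁, ← hs,
      Category.assoc]), Category.assoc, h.z₁, comp_zero]
  · obtain ⟨s, hs⟩ := ka.surj (y ≫ q')
    obtain ⟨r, rfl⟩ := h.ex₃.lift s (kb.eq_zero (by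
      rw [F.map_comp, Category.assoc, w₄, ← Category.assoc, hs, Category.assoc, h'.z₃,
        comp_zero]))
    obtain ⟨u, hu⟩ := h'.ex₂.lift (y - F.map r ≫ c) (by
      rw [Preadditive.sub_comp, ← hs, F.map_comp, Category.assoc, w₃, Category.assoc, sub_self])
    obtain ⟨t, rfl⟩ := hb.surj u
    exact ⟨r + t ≫ g, by
      beta_reduce
      rw [F.map_add, Preadditive.add_comp, F.map_comp, Category.assoc, w₂, ← Category.assoc, hu,
        add_sub_cancel]⟩

end abstract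

section strict

variable {M : Type u} [Category.{v} M] [MonoidalCategory M] [SymmetricCategory M]
  [MonoidalClosed M] [HasZeroMorphisms M] [HasColimitsOfSize.{0, 0} M] [StabInput M] [HasFix M]
  {G : Type} [Group G] (D : Stab M) {U : Action M G} (a : U ⟶ 𝟙_ _) (ha : Rot a)
  (S : Action M G) [ComonObj S] [IsCommComonObj S]

/-- the Kleisli category -/
abbrev KK : Type (max u v) := Kl ((st (DX D a ha)).obj S)

/-- the Kleisli object of an equivariant object -/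
noncomputable abbrev kH : Action M G ⥤ KK D a ha S := st (DX D a ha) ⋙ Kl.ks _

/-- the Kleisli object of a non-equivariant object -/
noncomputable abbrev kE : SC D ⥤ KK D a ha S := tau D a ha ⋙ Kl.ks _

variable {S} {A B : M} {X Y X' : Action M G}

/-- the Kleisli map of a strict map -/
noncomputable def kf (φ : (uL S).obj A ⟶ X) :
    (kE D a ha S).obj ((st D).obj A) ⟶ (kH D a ha S).obj X :=
  Kl.of (S := (st (DX D a ha)).obj S) (A := (st _).obj ((triv G).obj A)) ((st (DX D a ha)).map φ)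

theorem un_kf (φ : (uL S).obj A ⟶ X) : Kl.un (kf D a ha φ) = (st (DX D a ha)).map φ := rfl

theorem kf_comp (φ : (uL S).obj A ⟶ X) (z : X ⟶ Y) :
    kf D a ha (φ ≫ z) = kf D a ha φ ≫ (kH D a ha S).map z :=
  Kl.hom_ext (((st (DX D a ha)).map_comp φ z).trans (Kl.un_comp_ks (kf D a ha φ) _).symm)

theorem kf_map (u : B ⟶ A) (φ : (uL S).obj A ⟶ X) :
    kf D a ha ((uL S).map u ≫ φ) = (kE D a ha S).map ((st D).map u) ≫ kf D a ha φ := by
  refine Kl.hom_ext (Eq.trans ?_ (Kl.un_ks_comp _ (kf D a ha φ)).symm)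
  rw [tau_st, un_kf, un_kf, Functor.map_comp, uL_map, SC.st_whiskerLeft]

theorem kE_δ (A B : M) : δ (kE D a ha S) ((st D).obj A) ((st D).obj B) =
    (kH D a ha S).map (δ (triv G) A B) := by
  rw [comp_δ, Kl.ks_δ, E.lift_δ, comp_δ, SC.st_δ]
  exact (Category.comp_id _).trans (congrArg _ (Category.comp_id _))

theorem st_delS (W W' : Action M G) : (st (DX D a ha)).map (delS S W W') =
    delS ((st (DX D a ha)).obj S) ((st _).obj W) ((st _).obj W') := by
  simp only [delS, tensorμ, Functor.map_comp, SC.st_whiskerLeft, SC.st_whiskerRight,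
    SC.st_associator_hom, SC.st_associator_inv, SC.st_braiding_hom, st_comul]
  rfl

theorem kf_tensor (φ : (uL S).obj A ⟶ X) (ψ : (uL S).obj B ⟶ Y) :
    kf D a ha (δ (uL S) A B ≫ (φ ⊗ₘ ψ)) =
      δ (kE D a ha S) _ _ ≫ (kf D a ha φ ⊗ₘ kf D a ha ψ) := by
  have h := Kl.of_tensor (S := (st (DX D a ha)).obj S) (A := (st _).obj ((triv G).obj A))
    (A' := (st _).obj ((triv G).obj B)) ((st (DX D a ha)).map φ) ((st (DX D a ha)).map ψ)
  rw [kE_δ]
  refine Kl.hom_ext (Eq.trans ?_ (Kl.un_ks_comp _ (kf D a ha φ ⊗ₘ kf D a ha ψ)).symm)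
  refine Eq.trans ?_ (congrArg (fun x => _ ≫ Kl.un x) h.symm)
  rw [un_kf, Kl.un_of, uL_δ, Functor.map_comp, Functor.map_comp, st_delS, SC.st_tensorHom,
    SC.st_whiskerLeft, Category.assoc]

theorem kf_ten (φ : (uL S).obj A ⟶ X) (K : LC) :
    kf D a ha ((ten (uL S) A K).inv ≫ φ ▷ (J (Action M G)).obj K) =
      δ (kE D a ha S) _ ((st D).obj ((J M).obj K)) ≫ kf D a ha φ ▷ _ := by
  have e : (ten (uL S) A K).inv = S ◁ δ (triv G) A ((J M).obj K) ≫ (α_ _ _ _).inv := by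
    rw [← cancel_epi (ten (uL S) A K).hom, Iso.hom_inv_id]
    refine Action.hom_ext _ _ ?_
    rw [Action.comp_hom, Action.comp_hom, ten_uL_hom_hom]
    simp
  rw [kE_δ]
  refine Kl.hom_ext (Eq.trans ?_ (Kl.un_ks_comp _
    (kf D a ha φ ▷ (kE D a ha S).obj ((st D).obj ((J M).obj K)))).symm)
  rw [un_kf, Kl.un_whiskerRight, un_kf, e, Functor.map_comp, Functor.map_comp, SC.st_whiskerLeft,
    SC.st_whiskerRight, SC.st_associator_inv, Category.assoc]
  rfl

theorem ten_δ_aux (S A B K : M) (d : S ⟶ S ⊗ S) :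
    ((α_ S (A ⊗ B) K).hom ≫ S ◁ (α_ A B K).hom) ≫ S ◁ 𝟙 (A ⊗ B ⊗ K) ≫ d ▷ (A ⊗ B ⊗ K) ≫
      (α_ S S _).hom ≫ S ◁ (α_ S A (B ⊗ K)).inv ≫ S ◁ (β_ S A).hom ▷ (B ⊗ K) ≫
        S ◁ (α_ A S (B ⊗ K)).hom ≫ (α_ S A (S ⊗ B ⊗ K)).inv =
    ((S ◁ 𝟙 (A ⊗ B) ≫ d ▷ (A ⊗ B) ≫ (α_ S S _).hom ≫ S ◁ (α_ S A B).inv ≫
      S ◁ (β_ S A).hom ▷ B ≫ S ◁ (α_ A S B).hom ≫ (α_ S A (S ⊗ B)).inv) ▷ K ≫
        (α_ (S ⊗ A) (S ⊗ B) K).hom) ≫ (S ⊗ A) ◁ (α_ S B K).hom := by
  monoidal

theorem ten_δ (A B : M) (K : LC) {Z : Action M G} (h : _ ⟶ Z) :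
    (ten (uL S) (A ⊗ B) K).hom ≫ (uL S).map (α_ A B _).hom ≫ δ (uL S) A (B ⊗ (J M).obj K) ≫ h =
      δ (uL S) A B ▷ _ ≫ (α_ _ _ _).hom ≫ (uL S).obj A ◁ (ten (uL S) B K).hom ≫ h := by
  simp only [← Category.assoc]
  refine congrArg (· ≫ h) (Action.hom_ext _ _ ?_)
  simp only [uL_δ, uL_map, delS, tensorμ, Action.comp_hom, Action.whiskerLeft_hom,
    Action.whiskerRight_hom, ten_uL_hom_hom, triv_δ_hom, Action.associator_hom_hom,
    Action.associator_inv_hom, Action.β_hom_hom]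
  exact ten_δ_aux S.V A B _ _

theorem tr_kH (u : X ⟶ Y) : Tr ((kE D a ha S).obj (SC.SS D)) ((kH D a ha S).map u)
    ((kH D a ha S).map (ci u)) ((kH D a ha S).map (cq u)) :=
  Kl.tr_ks (tr_of_tri (X := SC.SS (DX D a ha)) (scTri_cone (DX D a ha) (isCone_cone u)))

/-- the map of cones given by a strict square -/
noncomputable def lcone {u : A ⟶ B} {u' : X ⟶ Y} (φ : (uL S).obj A ⟶ X) (ψ : (uL S).obj B ⟶ Y)
    (w : (uL S).map u ≫ ψ = φ ≫ u') : (uL S).obj (cone u) ⟶ cone u' :=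
  (isPushout_tenCone (uL S) (isPushout_cone u)).desc (φ ▷ CI _ ≫ ck u') (ψ ≫ ci u') (by
    rw [coneBase_naturality_assoc, coneBase_ck, ← Category.assoc ((uL S).map u), w,
      Category.assoc])

variable {u : A ⟶ B} {u' : X ⟶ Y} {φ : (uL S).obj A ⟶ X} {ψ : (uL S).obj B ⟶ Y}
  (w : (uL S).map u ≫ ψ = φ ≫ u')

theorem ck_lcone : tenCone (uL S) (ck u) ≫ lcone φ ψ w = φ ▷ CI _ ≫ ck u' :=
  IsPushout.inl_desc _ _ _ _

theorem ci_lcone : (uL S).map (ci u) ≫ lcone φ ψ w = ψ ≫ ci u' := IsPushout.inr_desc _ _ _ _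

theorem lcone_cq : (uL S).map (cq u) ≫ (ten (uL S) A RR).inv ≫ φ ▷ StabInput.S _ =
    lcone φ ψ w ≫ cq u' := by
  have h := isCone_map (uL S) (isCone_cone u)
  refine h.po.hom_ext ?_ ?_
  · rw [← Category.assoc _ (lcone φ ψ w), ck_lcone, Category.assoc, ck_cq,
      ← Category.assoc ((uL S).map _), ← Category.assoc, h.kq, ccoll_naturality]
    rfl
  · rw [← Category.assoc _ (lcone φ ψ w), ci_lcone, Category.assoc, ci_cq,
      ← Category.assoc ((uL S).map (cq u)), ← Category.assoc, h.iq, zero_comp, comp_zero]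

theorem fb_lcone {T T' : SC D} (e : T ≅ T' ⊗ SC.SS D) (h1 : FB _ T (kf D a ha φ))
    (h2 : FB _ T (kf D a ha ψ)) (h3 : FB _ T' (kf D a ha φ)) (h4 : FB _ T' (kf D a ha ψ)) :
    FB _ T (kf D a ha (lcone φ ψ w)) :=
  FB.five (tr_of_tri (scTri_cone D (isCone_cone u))) (tr_kH D a ha u')
    (by rw [← kf_map, w, kf_comp]) (by rw [← kf_map, ci_lcone, kf_comp])
    (((congrArg (_ ≫ ·) (kf_ten D a ha φ RR).symm).trans (kf_map D a ha _ _).symm).trans
      (by rw [← kf_comp, ← lcone_cq])) e h1 h2 h3 h4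

section c1

variable {N N' : CommMon M} {Z Z' : CommMon (Action M G)} {φ : (uL S).obj N.X ⟶ Z.X}
  {φ' : (uL S).obj N'.X ⟶ Z'.X} {P : M} {e : (uL S).obj P ⟶ Y} {x : P ⟶ N.X} {y : Y ⟶ Z.X}
  {n : N ⟶ N'} {z : Z ⟶ Z'} {χ : P ⊗ CI M ⟶ N'.X} {ξ : Y ⊗ CI (Action M G) ⟶ Z'.X}

theorem act_w (h : IsOpHom (uL S) φ) (hx : (uL S).map x ≫ φ = e ≫ y) :
    (uL S).map (actL x) ≫ φ = (δ (uL S) N.X P ≫ (φ ⊗ₘ e)) ≫ actL y := by
  rw [actL, actL, Functor.map_comp, Category.assoc, h.mul, ← δ_natural_right_assoc,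
    Category.assoc, ← id_tensorHom, ← id_tensorHom, tensorHom_comp_tensorHom_assoc,
    tensorHom_comp_tensorHom_assoc, hx, Category.id_comp, Category.comp_id]

variable (h : IsOpHom (uL S) φ) (h' : IsOpHom (uL S) φ') (hx : (uL S).map x ≫ φ = e ≫ y)
  (hz : φ ≫ ah z = (uL S).map (ah n) ≫ φ') (hχ : tenCone (uL S) χ ≫ φ' = e ▷ CI _ ≫ ξ)
  (wN : coneBase P ≫ χ = x ≫ ah n) (wZ : coneBase Y ≫ ξ = y ≫ ah z)
include h' hz hχ

theorem c1_w : (uL S).map (c1 wN) ≫ φ' = lcone _ _ (act_w h hx) ≫ c1 wZ := by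
  refine (isPushout_tenCone (uL S) (isPushout_cone _)).hom_ext ?_ ?_
  · rw [← Category.assoc, tenCone_map, ck_c1, ← Category.assoc _ (lcone _ _ _), ck_lcone,
      Category.assoc, ck_c1, tenCone_def, Functor.map_comp, Functor.map_comp, Category.assoc,
      Category.assoc, Category.assoc, h'.mul, ← δ_natural_assoc, ten_δ,
      tensorHom_comp_tensorHom_assoc, ← id_tensorHom, tensorHom_comp_tensorHom_assoc,
      Category.id_comp, ← hz, ← Category.assoc (ten _ _ _).hom, ← tenCone_def, hχ,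
      comp_whiskerRight, Category.assoc, ← tensorHom_id (φ ⊗ₘ e), associator_naturality_assoc,
      tensorHom_comp_tensorHom_assoc, tensorHom_id]
  · rw [← Category.assoc _ (lcone _ _ _), ci_lcone, Category.assoc, ci_c1, ← Functor.map_comp_assoc,
      ci_c1, hz]

include h hx in
theorem fb_c1 {T T' : SC D} (k : T ≅ T' ⊗ SC.SS D) (h1 : FB _ T (kf D a ha φ))
    (h2 : FB _ T' (kf D a ha φ)) (h3 : FB _ T (δ _ _ _ ≫ (kf D a ha φ ⊗ₘ kf D a ha e)))
    (h4 : FB _ T' (δ _ _ _ ≫ (kf D a ha φ ⊗ₘ kf D a ha e))) (hN : Bij T ((st D).map (c1 wN)))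
    (hZ : Bij ((kE D a ha S).obj T) ((kH D a ha S).map (c1 wZ))) : FB _ T (kf D a ha φ') := by
  rw [← kf_tensor] at h3 h4
  refine FB.of_pre hN ?_
  rw [← kf_map, c1_w h h' hx hz hχ wN wZ, kf_comp]
  exact (fb_lcone D a ha (act_w h hx) k h3 h1 h4 h2).post hZ

end c1

theorem fb_tensor {P : M} {e : (uL S).obj P ⟶ Y} [IsInv ((st D).obj P)] [IsIso (kf D a ha e)]
    {T R : SC D} (r : T ≅ R ⊗ (st D).obj P) (h : FB _ R (kf D a ha φ)) :
    FB _ T (δ _ _ _ ≫ (kf D a ha φ ⊗ₘ kf D a ha e)) := by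
  have := ((h.tensor _).of_iso r).post (Bij.of_isIso _ (_ ◁ kf D a ha e))
  rwa [Category.assoc, ← MonoidalCategory.tensorHom_def] at this

end strict

end Vale.Agent.P257.N
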