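import Vale.Agent.P257.N.Five
import Vale.Agent.P257.N.Fat
import Vale.Agent.P257.N.Triv
import Vale.Agent.P257.F.Frs
import Vale.Agent.P257.W.TC
import Vale.Agent.P257.M.LES

/-!
# P257, block N: good levels

* `NIso`, `NTw`, `Gd P Lm W B a`, `UN P Lm a W`;
* `obsK`, `bijK`: underlying equivalences are equivalences in the Kleisli category;
* `Gd.sigma`, `Gd.kappa`: the two kinds of steps.
-/

open CategoryTheory MonoidalCategory Limits Functor.LaxMonoidal Functor.OplaxMonoidal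

namespace Vale.Agent.P257.N

open Vale.Agent.P251.H Vale.Agent.P251.H.StabInput
open Vale.Agent.P251.M (IsInv)
open Vale.Agent.P257.A Vale.Agent.P257.T Vale.Agent.P257.K Vale.Agent.P257.L
open Vale.Agent.P257.M Vale.Agent.P257.C Vale.Agent.P257.W Vale.Agent.P257.D
open Vale.Agent.P257.E (triv JA aP rot_aP syl isPushout_hom coneBase_hom rsA_st_hom tt)
open Vale.Agent.P257.F (DH sH RH)
open Vale.Agent.P257.Z (Ctx AA RA pd)
open Equiv (Perm)

set_option linter.unusedSectionVars false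

universe v u

section und

variable {M : Type u} [Category.{v} M] [MonoidalCategory M] [SymmetricCategory M]
  [MonoidalClosed M] [HasZeroMorphisms M] [HasColimitsOfSize.{0, 0} M] [StabInput M]
  {G : Type} [Group G] {X Y : Action M G}

theorem isPushout_coneV (z : X ⟶ Y) : IsPushout (coneBase X.V) z.hom (ck z).hom (ci z).hom :=
  coneBase_hom X ▸ isPushout_hom (isPushout_cone z)

theorem exists_c1_hom {B B' : CommMon (Action M G)} {x : X ⟶ B.X} {i : B ⟶ B'}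
    {χ : X ⊗ CI (Action M G) ⟶ B'.X} (h : IsAttach i x χ) :
    ∃ e : cone (actL (B := und B) x.hom) ≅ (cone (actL x)).V,
      e.hom ≫ (c1 h.w).hom = c1 (B' := und B') h.und.w := by
  have k : (actL x).hom = actL (B := und B) x.hom :=
    congrArg (B.X.V ◁ x.hom ≫ ·) (und_mul B).symm
  have H := isPushout_coneV (actL x)
  rw [k] at H
  have H0 := isPushout_cone (actL (B := und B) x.hom)
  have k1 := ck_c1 (X := X.V) (B := und B) (B' := und B') (x := x.hom) (i := undMap i)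
    (χ := χ.hom) h.und.w
  have k2 := ci_c1 (X := X.V) (B := und B) (B' := und B') (x := x.hom) (i := undMap i)
    (χ := χ.hom) h.und.w
  refine ⟨H0.isoIsPushout _ _ H, cone_ext ?_ ?_⟩
  · refine (H0.inl_isoIsPushout_hom_assoc _ _ H _).trans
      ((congrArg Action.Hom.hom (ck_c1 h.w)).trans (Eq.trans ?_ k1.symm))
    rw [Action.comp_hom, Action.comp_hom, Action.tensorHom_hom, Action.associator_hom_hom]
    exact congrArg (fun m => (α_ B.X.V X.V (CI M)).hom ≫ ((ah i).hom ⊗ₘ χ.hom) ≫ m) (und_mul B').symm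
  · exact (H0.inr_isoIsPushout_hom_assoc _ _ H _).trans
      ((congrArg Action.Hom.hom (ci_c1 h.w)).trans k2.symm)

theorem isAttach_zero {P : M} (h : IsZero P) (B : CommMon M) :
    IsAttach (𝟙 B) (0 : P ⟶ B.X) (0 : P ⊗ CI M ⟶ B.X) := by
  have k : IsZero (P ⊗ CI M) := by
    rw [IsZero.iff_id_eq_zero] at h ⊢
    rw [← id_whiskerRight, h]
    exact (tensorRight _).map_zero _ _
  exact ⟨h.eq_of_src _ _, fun φ _ _ => ⟨φ, Category.id_comp _, k.eq_of_src _ _⟩,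
    fun e _ => by simpa using e⟩

end und

variable (ι : Type) [Finite ι] (p : ℕ)

/-- the unit sphere -/
noncomputable abbrev SM : Action MM (Perm ι) := (JA (Perm ι) MM).obj (AA ι)

/-- the Kleisli category -/
abbrev KP : Type 1 :=
  KK (De p) (aP (Gr.inc O (0 : Gam)) (syl p ι : Subgroup (Perm ι))) (rot_aP _ _) (SM ι)

/-- the Kleisli object of an equivariant object -/
noncomputable abbrev kP : Action MM (Perm ι) ⥤ KP ι p := kH _ _ _ _

/-- the Kleisli object of a non-equivariant object -/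
noncomputable abbrev kT : EE p ⥤ KP ι p := kE _ _ _ _

/-- the cells of the Kleisli category -/
noncomputable abbrev cK : Cells (KP ι p) (ℤ × Gam) := (cE p).map (kT ι p)

variable {ι}

/-- the Kleisli map of a strict map -/
noncomputable abbrev kφ {A : MM} {X : Action MM (Perm ι)} (φ : (uL (SM ι)).obj A ⟶ X) :
    (kT ι p).obj ((sE p).obj A) ⟶ (kP ι p).obj X := kf _ _ _ φ

variable {B B' : CommMon MM}

/-- the comparison map is bijective in degree `g` -/
def NIso (a : NZ (SM ι) B) (g : Gam) : Prop :=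
  ∀ l : ℤ, FB (kT ι p) ((cE p).obj (l, g)) (kφ p a.φ)

/-- the twisted groups vanish in degree `g` -/
def NTw (a : NZ (SM ι) B) (g : Gam) : Prop :=
  ∀ l : ℤ, (cK ι p).Van ((kP ι p).obj (F.RM ι) ⊗ (kP ι p).obj a.Z.X) (l, g)

/-- good levels -/
structure Gd (P Lm W : ℤ) (B : CommMon MM) (a : NZ (SM ι) B) : Prop where
  posN : PosT a.N.X 0
  posZ : PosT a.Z.X.V 0
  iso (b : Lam) (T : ℤ) : T ≤ P → NIso p a (b, T)
  tw (W' : ℤ) : (∀ b, ell b ≤ Lm → V.Stab (tE p) P ((sE p).obj B.X) b W') →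
    ∀ (b : Lam) (T : ℤ), ell b ≤ Lm → W' + W ≤ T → T ≤ P → NTw p a (b, T)

/-- universally good levels -/
def UN (P Lm : ℤ) (a : NZ (SM ι) B) (W : ℤ) : Prop :=
  UNZ (fun B a => PosT B.X 0 → Gd p P Lm W B a) a

variable {p} {P Lm W W' : ℤ} {a b : NZ (SM ι) B}

theorem Gd.mono (h : Gd p P Lm W B a) (k : W ≤ W') : Gd p P Lm W' B a :=
  ⟨h.posN, h.posZ, h.iso, fun W'' hs c T h1 h2 h3 => h.tw W'' hs c T h1 (by omega) h3⟩

namespace UN

theorem ex (h : UN p P Lm a W) (f : B ⟶ B') : ∃ (a' : NZ (SM ι) B') (k : NZ.Hom f a a'), k.PO :=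
  UNZ.ex h f

theorem gd (h : UN p P Lm a W) (hB : PosT B.X 0) : Gd p P Lm W B a := UNZ.self h hB

theorem mono (h : UN p P Lm a W) (k : W ≤ W') : UN p P Lm a W' :=
  UNZ.mono h fun _ _ l hB => (l hB).mono k

theorem bc (h : UN p P Lm a W) {f : B ⟶ B'} {a' : NZ (SM ι) B'} {k : NZ.Hom f a a'} (hk : k.PO) :
    UN p P Lm a' W := UNZ.bc h hk

end UN

variable {X Y : Action MM (Perm ι)} {g : Gam} {r : ℤ}

theorem posT_coneV (z : X ⟶ Y) (hX : PosT X.V r) (hY : PosT Y.V r) : PosT (cone z).V r :=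
  Supp.of_isPushout (isPushout_coneV z) (V.supp_tensor_J V.wT_mono hX _) hY

theorem posT_UH (h : PosT X.V r) : PosT ((DH ι p).U ⊗ X).V r := by
  have k : PosT (DH ι p).U.V (0 + 0 + 0 + 0) :=
    V.posT_tensor (V.posT_tensor (V.posT_tensor ((NF0.rep _ 0).posT le_rfl) (V.posT_J _))
      (NF.L.posT le_rfl)) (V.posT_J _)
  simpa using V.posT_tensor k h

theorem isCone_kP (z : X ⟶ Y) : V.IsCone (cK ι p) ((kP ι p).map z) ((kP ι p).obj (cone z)) :=
  have h := tr_kH (S := SM ι) (De p) _ (rot_aP _ _) z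
  V.IsCone.of_ex ((kT ι p).mapIso (SIso p)) h.ex₁ h.ex₂ h.ex₃ h.z₁ h.z₃

theorem van_coneV {z : X ⟶ Y} (h : ∀ l, Bij ((cE p).obj (l, g)) ((sE p).map z.hom)) (l : ℤ) :
    (cE p).Van ((sE p).obj (cone z).V) (l, g) :=
  ((realE p).cone (isPushout_coneV z)).van' (.of_bijective (h _)) (.of_bijective (h _))

/-- the splitting of a cell -/
noncomputable def cSub (d e : ℤ × Gam) : (cE p).obj d ≅ (cE p).obj (d - e) ⊗ (cE p).obj e :=
  eqToIso (by rw [sub_add_cancel]) ≪≫ ((cE p).add _ _).symm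

/-- the desuspension of a cell -/
noncomputable def cPred (l : ℤ) (g : Gam) :
    (cE p).obj (l, g) ≅ (cE p).obj (l - 1, g) ⊗ SC.SS (De p) :=
  cSub (l, g) (1, 0) ≪≫ (eqToIso (by simp) ⊗ᵢ (SIso p).symm)

variable [hp : Fact p.Prime] [Fact (Nat.card ι = p)]

variable (ι p) in
/-- the context of the base lemma -/
abbrev CX : Type 1 := Ctx (JA _ MM ⋙ sH ι p) (J MM ⋙ sE p) (RH ι p)

theorem isIso_hom (z : X ⟶ Y) [IsIso ((sH ι p).map z)] : IsIso ((sE p).map z.hom) := by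
  rw [← rsA_st_hom (De p) (aP (Gr.inc O (0 : Gam)) (syl p ι : Subgroup (Perm ι))) (rot_aP _ _)]
  exact inferInstanceAs (IsIso ((Action.forget _ _).map ((RH ι p).map ((sH ι p).map z))))

theorem isZero_coneV (z : X ⟶ Y) [IsIso ((sH ι p).map z)] : IsZero ((sE p).obj (cone z).V) := by
  have := isIso_hom (p := p) z
  obtain ⟨q, h⟩ := scTri_pushout (De p) (isPushout_coneV z)
  exact isZero_of_tri h

variable (C : CX ι p)
include C

theorem obsK (h : ∀ l, (cE p).Van ((sE p).obj X.V) (l, g)) (l : ℤ) :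
    (cK ι p).Van ((kP ι p).obj X) (l, g) :=
  Kl.zr_iff.2 (obs_kl C _ X fun n => Z.Zr.of_iso (h (l + n))
    (whiskerLeftIso _ (tpowCell (cE p) (SIso p) n) ≪≫ (cE p).add _ _ ≪≫
      eqToIso (by simp)).symm (Iso.refl _))

theorem bijK {z : X ⟶ Y} (h : ∀ l, Bij ((cE p).obj (l, g)) ((sE p).map z.hom)) (l : ℤ) :
    Bij ((cK ι p).obj (l, g)) ((kP ι p).map z) :=
  V.bijective_of ((isCone_kP z).inj' (obsK C (van_coneV h) _))
    ((isCone_kP z).surj' (obsK C (van_coneV h) _))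

theorem bijK_left {R : Action MM (Perm ι)} (hR : NF0 R.V 0 r) {z : X ⟶ Y}
    (h : ∀ l, Bij ((cE p).obj (l, g)) ((sE p).map z.hom)) (l : ℤ) :
    Bij ((cK ι p).obj (l, g)) ((kP ι p).obj R ◁ (kP ι p).map z) := by
  obtain ⟨e⟩ := hR.iso p
  have k : ∀ l, (cK ι p).Van ((kP ι p).obj R ⊗ (kP ι p).obj (cone z)) (l, g) :=
    obsK C (X := R ⊗ cone z) fun l => (Cells.Van.tensor (e := (r, 0)) (by
      simpa using van_coneV h (l - r))).of_iso (β_ _ _ ≪≫ whiskerRightIso e.symm _)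
  exact V.bijective_of ((isCone_kP z).inj _ _ _ (k _)) ((isCone_kP z).surj _ _ _ (k _))

theorem bij_c1_hom {Z Z' : CommMon (Action MM (Perm ι))} {y : Y ⟶ Z.X} {z : Z ⟶ Z'}
    {ξ : Y ⊗ CI _ ⟶ Z'.X} (h : IsAttach z y ξ) (hv : HV Y.V) (hZ : PosT Z.X.V 0) (hY : PosT Y.V 1)
    {k : ℤ} (e : Nonempty ((sE p).obj Y.V ≅ (cE p).obj (k, g))) (hk : Even k) (c : Lam) {T : ℤ}
    (hT : T < p) (l : ℤ) : Bij ((cE p).obj (l, (c, T))) ((sE p).map (c1 h.w).hom) := by
  obtain ⟨i, hi⟩ := exists_c1_hom h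
  refine Bij.of_comp_left (Bij.of_isIso _ ((sE p).map i.hom)) ?_
  rw [← Functor.map_comp, hi]
  exact (worldE hp.out).bij_c1 h.und hv hZ hY e hk l c hT

variable [Nontrivial ι] {A : MM} {e : (uL (SM ι)).obj A ⟶ Y}

theorem Gd.sigma (h : Gd p P Lm W B a) (hP : P < p) (s : NZ.Step e a b) {c : Lam} {w k : ℤ}
    (hA : NF A (c, w) k) (hk : Even k) (hw : 1 ≤ w) (hc : 0 ≤ ell c) [IsIso (kφ p e)]
    (hv : HV Y.V) (hY : PosT Y.V 1) : Gd p P Lm (W + w) B b := by
  obtain ⟨i⟩ := hA.iso p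
  have : IsInv ((sE p).obj A) := have := F.isInv_cell (cE p) (k, (c, w)); IsInv.of_iso i.symm
  have hZ := bij_c1_hom C s.attZ hv h.posZ hY
    ⟨((vx C (Classical.arbitrary ι)).lift.mapIso (asIso (kφ p e))).symm ≪≫ i⟩ hk
  refine ⟨V.posT_attach s.attN h.posN (hA.posT (by omega)),
    V.posT_attach s.attZ.und h.posZ (V.posT_mono hY zero_le_one), fun d T hT l => ?_,
    fun W' hs d T h1 h2 h3 l => ?_⟩
  · have t : ∀ l, FB (kT ι p) ((cE p).obj (l, (d, T))) (δ _ _ _ ≫ (kφ p a.φ ⊗ₘ kφ p e)) := fun l =>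
      fb_tensor _ _ _ (cSub _ (k, (c, w)) ≪≫ whiskerLeftIso _ i.symm)
        (h.iso (d - c) (T - w) (by omega) (l - k))
    exact fb_c1 _ _ _ a.isOpHom_φ b.isOpHom_φ s.hx s.hom.φ_z s.hχ s.attN.w s.attZ.w (cPred l _)
      (h.iso d T hT l) (h.iso d T hT _) (t _) (t _)
      ((worldE hp.out).bij_c1 s.attN hA.hv h.posN (hA.posT hw) ⟨i⟩ hk l d (hT.trans_lt hP))
      (bijK C (hZ d (hT.trans_lt hP)) l)
  · refine V.Surj.van (.of_bijective (bijK_left C F.nf0_RM (hZ d (h3.trans_lt hP)) l))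
      ((isCone_kP _).van_cone (h.tw W' hs d T h1 (by omega) h3 l) ?_)
    refine (Cells.Van.tensor (e := (k, (c, w))) (h.tw W' hs (d - c) (T - w)
      (by rw [map_sub]; omega) (by omega) (by omega) (l - 1 - k))).of_iso ?_
    exact whiskerLeftIso _ ((kT ι p).mapIso i.symm ≪≫ asIso (kφ p e)) ≪≫ α_ _ _ _

omit [Nontrivial ι] in
theorem bij_ah_hom {Z Z' : CommMon (Action MM (Perm ι))} {y : Y ⟶ Z.X} {z : Z ⟶ Z'}
    {ξ : Y ⊗ CI _ ⟶ Z'.X} (h : IsAttach z y ξ) (hv : HV Y.V) (hZ : PosT Z.X.V 0) (hY : PosT Y.V 1)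
    (e : IsZero ((sE p).obj Y.V)) (c : Lam) {T : ℤ} (hT : T < p) (l : ℤ) :
    Bij ((cE p).obj (l, (c, T))) ((sE p).map (ah z).hom) :=
  (worldE hp.out).bij_ah h.und hv hZ hY (.of_isZero e) l c hT.le

theorem Gd.kappa (h : Gd p P Lm W B a) (hP : P < p) (s : NZ.Step e a b) (hA : IsZero A)
    (hv : HV Y.V) (hY : PosT Y.V 1) (h0 : IsZero ((sE p).obj Y.V)) : Gd p P Lm W B b := by
  have hZ := bij_ah_hom C s.attZ hv h.posZ hY h0
  obtain ⟨j, hj, -⟩ := IsAtt.exists_iso (isAttach_zero hA a.N) (hA.eq_of_src s.x 0 ▸ s.attN)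
  refine ⟨V.posT_attach s.attN h.posN (.of_isZero hA),
    V.posT_attach s.attZ.und h.posZ (V.posT_mono hY zero_le_one), fun d T hT l => ?_,
    fun W' hs d T h1 h2 h3 l => V.Surj.van
      (.of_bijective (bijK_left C F.nf0_RM (hZ d (h3.trans_lt hP)) l)) (h.tw W' hs d T h1 h2 h3 l)⟩
  refine FB.of_pre (Bij.of_isIso _ ((sE p).map (ahIso j).hom)) ?_
  rw [← kf_map, show (ahIso j).hom = ah s.hom.n from congrArg ah ((Category.id_comp _).symm.trans hj),
    ← s.hom.φ_z, kf_comp]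
  exact (h.iso d T hT l).post (bijK C (hZ d (hT.trans_lt hP)) l)

end Vale.Agent.P257.N
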