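import Vale.Agent.P257.A.MapE
import Vale.Agent.P257.L.WTow
import Vale.Agent.P257.L.Loc

/-!
# P257, block N: the linear part of a cell attachment

`Zr E W`: all maps from test objects to `W` vanish.  `Lin E st i x χ`: the map from the mapping
cone of `B ⊗ X ⟶ B` to `B'` is a weak equivalence.
-/

open CategoryTheory MonoidalCategory Limits MonObj

namespace Vale.Agent.P257.N

open Vale.Agent.P251.H Vale.Agent.P251.H.StabInput Vale.Agent.P251.M
open Vale.Agent.P257.A Vale.Agent.P257.L Vale.Agent.P257.F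

universe v u v' u'

section zr

variable {C : Type u} [Category.{v} C] [MonoidalCategory C] [Preadditive C] {S : C}

/-- all maps from test objects to `W` vanish -/
def Zr (E : Tests S) (W : C) : Prop := ∀ T, E.P T → ∀ f : T ⟶ W, f = 0

variable {E : Tests S} {A B Z W W' : C}

theorem Zr.of_mono (h : Zr E W) (i : W' ⟶ W) [Mono i] : Zr E W' := fun T t f => by
  rw [← cancel_mono i, h T t (f ≫ i), zero_comp]

theorem Zr.of_iso (h : Zr E W) (e : W ≅ W') : Zr E W' := h.of_mono e.inv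

theorem Zr.of_isZero (h : IsZero W) : Zr E W := fun _ _ f => h.eq_of_tgt f 0

theorem Zr.of_we (h : Zr E W) {φ : W ⟶ W'} (k : E.WE φ) : Zr E W' := fun T t f => by
  obtain ⟨g, rfl⟩ := (k T t).surj f
  rw [h T t g, zero_comp]

theorem Zr.of_we' (h : Zr E W') {φ : W ⟶ W'} (k : E.WE φ) : Zr E W := fun T t f =>
  (k T t).inj ((h T t _).trans (h T t _).symm)

theorem Zr.we (h : Zr E W) (h' : Zr E W') (φ : W ⟶ W') : E.WE φ := fun T t =>
  ⟨fun x y _ => (h T t x).trans (h T t y).symm, fun y => ⟨0, (h' T t _).trans (h' T t y).symm⟩⟩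

variable [SymmetricCategory C] [IsInv S] [MonoidalPreadditive C]

theorem Zr.susp (h : Zr E W) : Zr E (W ⊗ S) := fun T t f => by
  obtain ⟨T', t', ⟨e⟩⟩ := E.dn t
  obtain ⟨g, hg⟩ := whiskerRight_surj S (e.inv ≫ f)
  rw [← cancel_epi e.inv, ← hg, h T' t' g]
  simp

theorem Zr.of_susp (h : Zr E (W ⊗ S)) : Zr E W := fun T t f => by
  obtain ⟨T', t', ⟨e⟩⟩ := E.up t
  refine whiskerRight_inj S ?_
  rw [← cancel_epi e.hom, h T' t' (e.hom ≫ _)]
  simp

variable {D : TriStr S} {f : A ⟶ B} {g : B ⟶ Z} {q : Z ⟶ A ⊗ S}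

theorem Zr.mid (h : D.Tri f g q) (hA : Zr E A) (hZ : Zr E Z) : Zr E B := fun T t y => by
  obtain ⟨x, rfl⟩ := TriStr.co₂ h y (hZ T t _)
  rw [hA T t x, zero_comp]

theorem Zr.cone (h : D.Tri f g q) (hA : Zr E A) (hB : Zr E B) : Zr E Z :=
  Zr.mid (D.rot h) hB hA.susp

theorem Zr.src (h : D.Tri f g q) (hB : Zr E B) (hZ : Zr E Z) : Zr E A :=
  (Zr.cone (D.rot h) hB hZ).of_susp

theorem Zr.we₂ (h : D.Tri f g q) (hA : Zr E A) : E.WE g := fun T t => by
  constructor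
  · intro x y e
    obtain ⟨w, hw⟩ := TriStr.co₂ h (x - y) (by rw [Preadditive.sub_comp]; exact sub_eq_zero.2 e)
    rw [← sub_eq_zero, ← hw, hA T t w, zero_comp]
  · intro y
    exact TriStr.co₃ h y (hA.susp T t _)

theorem Zr.we₁ (h : D.Tri f g q) (hZ : Zr E Z) : E.WE f := by
  have h1 : E.WE (-f ▷ S) := Zr.we₂ (D.rot (D.rot h)) hZ
  refine Tests.WE.of_susp
    (h1.of_arrow (Iso.refl _) ⟨-𝟙 _, -𝟙 _, by simp, by simp⟩ ?_)
  simp

theorem zr_of_we₁ (h : D.Tri f g q) (hf : E.WE f) : Zr E Z := fun T t y => by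
  have h1 : y ≫ q = 0 := (hf.susp T t).inj (by
    rw [Category.assoc, TriStr.comp₃ h, comp_zero, zero_comp])
  obtain ⟨x, rfl⟩ := TriStr.co₃ h y h1
  obtain ⟨x, rfl⟩ := (hf T t).surj x
  rw [Category.assoc, TriStr.comp₁ h, comp_zero]

end zr

variable {M : Type u} [Category.{v} M] [MonoidalCategory M] [SymmetricCategory M]
  [MonoidalClosed M] [HasZeroMorphisms M] [HasColimitsOfSize.{0, 0} M] [StabInput M]
  {C : Type u'} [Category.{v'} C] [Preadditive C] [MonoidalCategory C] [SymmetricCategory C]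
  [MonoidalPreadditive C] (st : M ⥤ C) [st.Monoidal] (E : Tests (st.obj (S M)))

/-- the layer of arity `k` vanishes -/
def Lay (B X : M) (k : ℕ) : Prop :=
  ∀ (D : M) (π : pw (Fin k) (X ⊗ S M) ⟶ D),
    IsOrb (fun σ : Equiv.Perm (Fin k) => pwE (X ⊗ S M) σ) π → Zr E (st.obj (B ⊗ D))

variable {X : M} {B B' : CommMon M}

/-- the mapping cone of `B ⊗ X ⟶ B` maps to `B'` by a weak equivalence -/
def Lin (i : B ⟶ B') (x : X ⟶ B.X) (χ : X ⊗ CI M ⟶ B'.X) : Prop :=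
  ∀ ⦃Z : M⦄ (k : (B.X ⊗ X) ⊗ CI M ⟶ Z) (j : B.X ⟶ Z) (c : Z ⟶ B'.X),
    IsPushout (coneBase (B.X ⊗ X)) (B.X ◁ x ≫ μ) k j →
      k ≫ c = (α_ _ _ _).hom ≫ (ah i ⊗ₘ χ) ≫ μ → j ≫ c = ah i → E.WE (st.map c)

variable {st E} {i : B ⟶ B'} {x : X ⟶ B.X} {χ : X ⊗ CI M ⟶ B'.X}

omit [st.Monoidal] [SymmetricCategory C] [MonoidalPreadditive C] [Preadditive C] in
theorem lin_w (w : coneBase X ≫ χ = x ≫ ah i) :
    coneBase (B.X ⊗ X) ≫ (α_ _ _ _).hom ≫ (ah i ⊗ₘ χ) ≫ μ = (B.X ◁ x ≫ μ) ≫ ah i := by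
  rw [Category.assoc, IsMonHom.mul_hom, ← id_tensorHom, tensorHom_comp_tensorHom_assoc, ← w,
    Category.id_comp, ← Category.id_comp (ah i), ← tensorHom_comp_tensorHom_assoc, id_tensorHom,
    Category.id_comp]
  simp [coneBase_def]

omit [st.Monoidal] [SymmetricCategory C] [MonoidalPreadditive C] [Preadditive C] in
/-- It suffices to check one model. -/
theorem Lin.of_model {Z : M} {k : (B.X ⊗ X) ⊗ CI M ⟶ Z} {j : B.X ⟶ Z} {c : Z ⟶ B'.X}
    (h : IsPushout (coneBase (B.X ⊗ X)) (B.X ◁ x ≫ μ) k j)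
    (hk : k ≫ c = (α_ _ _ _).hom ≫ (ah i ⊗ₘ χ) ≫ μ) (hj : j ≫ c = ah i) (hc : E.WE (st.map c)) :
    Lin st E i x χ := fun Z' k' j' c' h' hk' hj' => by
  have e : (h'.isoIsPushout _ _ h).hom ≫ c = c' := h'.hom_ext
    (by rw [IsPushout.inl_isoIsPushout_hom_assoc, hk, hk'])
    (by rw [IsPushout.inr_isoIsPushout_hom_assoc, hj, hj'])
  rw [← e, st.map_comp]
  exact (Tests.WE.of_isIso _).comp hc

omit [st.Monoidal] [SymmetricCategory C] [MonoidalPreadditive C] [Preadditive C] in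
theorem Lin.of_stgTo (w : coneBase X ≫ χ = x ≫ ah i) (h : E.WE (st.map (stgTo w 1))) :
    Lin st E i x χ :=
  Lin.of_model (isPushout_stg_one x) (by rw [Category.assoc, pw1_stgTo]) (presI_stgTo w 1) h

variable (H : Loc st) [IsInv (st.obj (S M))]
include H

theorem we_stgI (x : X ⟶ B.X) (k : ℕ) (h : Lay st E B.X X (k + 1)) :
    E.WE (st.map (stgI (coneBase X) x k)) := by
  obtain ⟨D, π, hπ⟩ := exists_isOrb (fun σ : Equiv.Perm (Fin (k + 1)) => pwE (X ⊗ S M) σ)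
  obtain ⟨r, -, hr⟩ := exists_cok_stgI x (Nat.card_fin (k + 1)) hπ
  obtain ⟨q, hq⟩ := H.tri_hCof (hCof_stgI x k) (isZero_empty (M := M))
    (hr.isPushout (isZero_empty (M := M)) 0 0)
  exact Zr.we₁ hq (h D π hπ)

theorem we_stgTo (w : coneBase X ≫ χ = x ≫ ah i) {j K : ℕ} (hj : j ≤ K)
    (h : ∀ k, j < k → k ≤ K → Lay st E B.X X k) (hK : E.WE (st.map (stgTo w K))) :
    E.WE (st.map (stgTo w j)) := by
  induction hj with
  | refl => exact hK
  | @step K hj ih =>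
    refine ih (fun k h1 h2 => h k h1 (by omega)) ?_
    rw [← stgI_stgTo, st.map_comp]
    exact (we_stgI H x K (h _ (Nat.lt_succ_of_le hj) le_rfl)).comp hK

/-- If the layers of arity at least two vanish, the attachment is a mapping cone. -/
theorem lin_of_lay (w : coneBase X ≫ χ = x ≫ ah i) {K : ℕ} (hK1 : 1 ≤ K)
    (h : ∀ k, 2 ≤ k → k ≤ K → Lay st E B.X X k) (hK : E.WE (st.map (stgTo w K))) :
    Lin st E i x χ :=
  Lin.of_stgTo w (we_stgTo H w hK1 h hK)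

/-- If all layers vanish, the attachment is a weak equivalence. -/
theorem we_ah_of_lay (w : coneBase X ≫ χ = x ≫ ah i) {K : ℕ}
    (h : ∀ k, 1 ≤ k → k ≤ K → Lay st E B.X X k) (hK : E.WE (st.map (stgTo w K))) :
    E.WE (st.map (ah i)) := by
  rw [← stg0_stgTo w, st.map_comp]
  exact (Tests.WE.of_isIso _).comp (we_stgTo H w (Nat.zero_le K) h hK)

end Vale.Agent.P257.N
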