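import Vale.Agent.P257.T.U

/-!
# P257, block N: levels `(N, Z, Φ : N ⟶ U Z)` over an algebra `B`

* `NZ S B`, `NZ.Hom`, `Hom.PO` (base change), `NZ.Step` (simultaneous cell attachments);
* `UNZ Q a`: base changes of `a` exist and satisfy `Q`; `UNZ.bc`, `UNZ.step`.
-/

open CategoryTheory MonoidalCategory Limits MonObj

namespace Vale.Agent.P257.N

open Vale.Agent.P251.H Vale.Agent.P251.H.StabInput
open Vale.Agent.P257.A Vale.Agent.P257.E Vale.Agent.P257.T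

set_option linter.unusedSectionVars false
set_option linter.dupNamespace false

universe v u

variable {M : Type u} [Category.{v} M] [MonoidalCategory M] [SymmetricCategory M]
  [MonoidalClosed M] [HasZeroMorphisms M] [HasColimitsOfSize.{0, 0} M] [StabInput M] [HasFix M]
  {G : Type} [Group G] (S : Action M G) [ComonObj S] [IsCommComonObj S]

/-- a level over `B` -/
structure NZ (B : CommMon M) where
  /-- the non-equivariant algebra -/
  N : CommMon M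
  /-- the equivariant algebra -/
  Z : CommMon (Action M G)
  /-- the structure map -/
  β : B ⟶ N
  /-- the structure map -/
  γ : trivC G B ⟶ Z
  /-- the comparison map -/
  Φ : N ⟶ (uR S).mapCommMon.obj Z
  w : β ≫ Φ = uOf S γ

variable {S} {B B' B'' : CommMon M}

theorem trivMap_id (B : CommMon M) : trivMap G (𝟙 B) = 𝟙 _ := (triv G).mapCommMon.map_id B

theorem trivMap_comp (f : B ⟶ B') (g : B' ⟶ B'') :
    trivMap G (f ≫ g) = trivMap G f ≫ trivMap G g := (triv G).mapCommMon.map_comp f g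

namespace NZ

/-- the adjoint of the comparison map -/
noncomputable def φ (a : NZ S B) : (uL S).obj a.N.X ⟶ a.Z.X := tr (uAdj S) a.Φ

theorem isOpHom_φ (a : NZ S B) : IsOpHom (uL S) a.φ := isOpHom_tr _ _

@[reassoc]
theorem β_φ (a : NZ S B) :
    (uL S).map (ah a.β) ≫ a.φ = prS S ((triv G).obj B.X) ≫ ahL a.γ := by
  rw [φ, ← tr_comp_left, a.w, tr_uOf]

/-- maps of levels over an algebra map -/
structure Hom (f : B ⟶ B') (a : NZ S B) (b : NZ S B') where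
  /-- the non-equivariant part -/
  n : a.N ⟶ b.N
  /-- the equivariant part -/
  z : a.Z ⟶ b.Z
  hβ : a.β ≫ n = f ≫ b.β
  hγ : a.γ ≫ z = trivMap G f ≫ b.γ
  hΦ : a.Φ ≫ (uR S).mapCommMon.map z = n ≫ b.Φ

namespace Hom

variable {f : B ⟶ B'} {g : B' ⟶ B''} {a : NZ S B} {b : NZ S B'} {c : NZ S B''}

@[reassoc]
theorem φ_z (h : Hom f a b) : a.φ ≫ ah h.z = (uL S).map (ah h.n) ≫ b.φ := by
  rw [φ, φ, ← tr_comp_right, h.hΦ, tr_comp_left]

/-- the identity -/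
def id (a : NZ S B) : Hom (𝟙 B) a a where
  n := 𝟙 _
  z := 𝟙 _
  hβ := by simp
  hγ := by rw [trivMap_id, Category.comp_id, Category.id_comp]
  hΦ := by simp

/-- composition -/
def comp (h : Hom f a b) (k : Hom g b c) : Hom (f ≫ g) a c where
  n := h.n ≫ k.n
  z := h.z ≫ k.z
  hβ := by rw [reassoc_of% h.hβ, k.hβ, Category.assoc]
  hγ := by rw [reassoc_of% h.hγ, k.hγ, trivMap_comp, Category.assoc]
  hΦ := by rw [Functor.map_comp, reassoc_of% h.hΦ, k.hΦ, Category.assoc]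

/-- change of the underlying algebra map along an equality -/
def cast {f' : B ⟶ B'} (h : Hom f a b) (e : f = f') : Hom f' a b where
  n := h.n
  z := h.z
  hβ := e ▸ h.hβ
  hγ := e ▸ h.hγ
  hΦ := h.hΦ

/-- base change -/
def PO (h : Hom f a b) : Prop :=
  IsPushout a.β f h.n b.β ∧ IsPushout a.γ (trivMap G f) h.z b.γ

theorem PO.id (a : NZ S B) : (Hom.id a).PO :=
  ⟨IsPushout.of_vert_isIso (g := 𝟙 B) (inl := 𝟙 a.N) ⟨(Hom.id a).hβ⟩, by
    rw [trivMap_id]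
    exact IsPushout.of_vert_isIso (inl := 𝟙 a.Z)
      ⟨(Category.comp_id _).trans (Category.id_comp _).symm⟩⟩

theorem PO.comp {h : Hom f a b} {k : Hom g b c} (hh : h.PO) (hk : k.PO) : (h.comp k).PO :=
  ⟨hh.1.paste_vert hk.1, by
    rw [trivMap_comp]
    exact hh.2.paste_vert hk.2⟩

theorem PO.cast {f' : B ⟶ B'} {h : Hom f a b} (hh : h.PO) (e : f = f') : (h.cast e).PO := by
  subst e
  exact hh

/-- the universal property of base change -/
theorem PO.lift {h : Hom f a b} (hh : h.PO) (k : Hom (f ≫ g) a c) :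
    ∃ l : Hom g b c, h.n ≫ l.n = k.n ∧ h.z ≫ l.z = k.z := by
  have w : a.γ ≫ k.z = trivMap G f ≫ trivMap G g ≫ c.γ := by
    rw [k.hγ, trivMap_comp, Category.assoc]
  have w' : a.β ≫ k.n = f ≫ g ≫ c.β := by rw [k.hβ, Category.assoc]
  refine ⟨⟨hh.1.desc _ _ w', hh.2.desc _ _ w, hh.1.inr_desc _ _ _, hh.2.inr_desc _ _ _, ?_⟩,
    hh.1.inl_desc _ _ _, hh.2.inl_desc _ _ _⟩
  refine hh.1.hom_ext ?_ ?_
  · rw [← reassoc_of% h.hΦ, ← Functor.map_comp, hh.2.inl_desc, hh.1.inl_desc_assoc, k.hΦ]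
  · rw [reassoc_of% b.w, uOf_comp, hh.2.inr_desc, hh.1.inr_desc_assoc, Category.assoc, c.w,
      comp_uOf]

theorem PO.of_comp {h : Hom f a b} (hh : h.PO) {k : Hom (f ≫ g) a c} (hk : k.PO) {l : Hom g b c}
    (h1 : h.n ≫ l.n = k.n) (h2 : h.z ≫ l.z = k.z) : l.PO :=
  ⟨IsPushout.of_top (h1 ▸ hk.1) l.hβ hh.1,
    IsPushout.of_top (by rw [h2, ← trivMap_comp]; exact hk.2) l.hγ hh.2⟩

end Hom

/-- A level from two pushout squares. -/
theorem exists_po (a : NZ S B) (f : B ⟶ B') {N' : CommMon M} {Z' : CommMon (Action M G)}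
    {n : a.N ⟶ N'} {β' : B' ⟶ N'} {z : a.Z ⟶ Z'} {γ' : trivC G B' ⟶ Z'}
    (h1 : IsPushout a.β f n β') (h2 : IsPushout a.γ (trivMap G f) z γ') :
    ∃ (b : NZ S B') (h : Hom f a b), h.PO := by
  have w : a.β ≫ a.Φ ≫ (uR S).mapCommMon.map z = f ≫ uOf S γ' := by
    rw [reassoc_of% a.w, uOf_comp, h2.w, comp_uOf]
  exact ⟨⟨N', Z', β', γ', h1.desc _ _ w, h1.inr_desc _ _ _⟩,
    ⟨n, z, h1.w, h2.w, (h1.inl_desc _ _ _).symm⟩, h1, h2⟩

/-- simultaneous attachment of a cell on `P` to `N` and of a cell on `Y` to `Z` -/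
structure Step {P : M} {Y : Action M G} (e : (uL S).obj P ⟶ Y) (a b : NZ S B) where
  /-- the inclusion -/
  hom : Hom (𝟙 B) a b
  /-- the attaching map -/
  x : P ⟶ a.N.X
  /-- the characteristic map -/
  χ : P ⊗ CI M ⟶ b.N.X
  /-- the attaching map -/
  y : Y ⟶ a.Z.X
  /-- the characteristic map -/
  ξ : Y ⊗ CI (Action M G) ⟶ b.Z.X
  attN : IsAttach hom.n x χ
  attZ : IsAttach hom.z y ξ
  hx : (uL S).map x ≫ a.φ = e ≫ y
  hχ : tenCone (uL S) χ ≫ b.φ = e ▷ CI (Action M G) ≫ ξ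

variable {P : M} {Y : Action M G} {e : (uL S).obj P ⟶ Y}

/-- A step from given attachments. -/
theorem exists_step' (a : NZ S B) {x : P ⟶ a.N.X} {y : Y ⟶ a.Z.X}
    (hx : (uL S).map x ≫ a.φ = e ≫ y) {N' : CommMon M} {n : a.N ⟶ N'} {χ : P ⊗ CI M ⟶ N'.X}
    (hn : IsAttach n x χ) {Z' : CommMon (Action M G)} {z : a.Z ⟶ Z'}
    {ξ : Y ⊗ CI (Action M G) ⟶ Z'.X} (hz : IsAttach z y ξ) :
    ∃ (Φ : N' ⟶ (uR S).mapCommMon.obj Z') (w : (a.β ≫ n) ≫ Φ = uOf S (a.γ ≫ z))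
      (s : Step e a ⟨N', Z', a.β ≫ n, a.γ ≫ z, Φ, w⟩),
      s.hom.n = n ∧ s.hom.z = z ∧ s.x = x ∧ s.y = y ∧ s.χ = χ ∧ s.ξ = ξ := by
  obtain ⟨Φ, h1, h2⟩ := hn.exists_adj (uAdj S) (a.Φ ≫ (uR S).mapCommMon.map z)
    (e ▷ CI (Action M G) ≫ ξ) (by
      rw [coneBase_naturality_assoc, hz.w, tr_comp_right, ← Category.assoc, ← hx, Category.assoc,
        φ])
  exact ⟨Φ, by rw [Category.assoc, h1, reassoc_of% a.w, uOf_comp],
    ⟨⟨n, z, (Category.id_comp _).symm, by rw [trivMap_id, Category.id_comp], h1.symm⟩, x, χ, y, ξ,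
      hn, hz, hx, h2⟩, rfl, rfl, rfl, rfl, rfl, rfl⟩

theorem exists_step (a : NZ S B) {x : P ⟶ a.N.X} {y : Y ⟶ a.Z.X}
    (hx : (uL S).map x ≫ a.φ = e ≫ y) : ∃ (b : NZ S B) (s : Step e a b), s.x = x ∧ s.y = y := by
  obtain ⟨N', n, χ, hn⟩ := exists_isAttach x
  obtain ⟨Z', z, ξ, hz⟩ := exists_isAttach y
  obtain ⟨Φ, w, s, -, -, h1, h2, -⟩ := a.exists_step' hx hn hz
  exact ⟨_, s, h1, h2⟩

namespace Step

variable {a b : NZ S B} (s : Step e a b) {f : B ⟶ B'} {a' b' : NZ S B'}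

theorem hβ : a.β ≫ s.hom.n = b.β := s.hom.hβ.trans (Category.id_comp _)

theorem hγ : a.γ ≫ s.hom.z = b.γ := by rw [s.hom.hγ, trivMap_id, Category.id_comp]

theorem hx_hom (h : Hom f a a') :
    (uL S).map (s.x ≫ ah h.n) ≫ a'.φ = e ≫ s.y ≫ ah h.z := by
  rw [Functor.map_comp, Category.assoc, ← h.φ_z, ← Category.assoc, s.hx, Category.assoc]

include s in
/-- A step can be repeated after a base change. -/
theorem exists_po {h : Hom f a a'} (hh : h.PO) : ∃ (b' : NZ S B') (k : Hom f b b'), k.PO := by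
  obtain ⟨N', n, χ, hn⟩ := exists_isAttach (s.x ≫ ah h.n)
  obtain ⟨Z', z, ξ, hz⟩ := exists_isAttach (s.y ≫ ah h.z)
  obtain ⟨n', h1, h2⟩ := s.attN.desc (h.n ≫ n) χ (by rw [hn.w, ah_comp, Category.assoc])
  obtain ⟨z', h3, h4⟩ := s.attZ.desc (h.z ≫ z) ξ (by rw [hz.w, ah_comp, Category.assoc])
  refine b.exists_po f (n := n') (β' := a'.β ≫ n) (z := z') (γ' := a'.γ ≫ z) ?_ ?_
  · rw [← s.hβ]
    exact hh.1.paste_horiz (IsAtt.isPushout s.attN hn h1 h2)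
  · rw [← s.hγ]
    exact hh.2.paste_horiz (IsAtt.isPushout s.attZ hz h3 h4)

/-- The base change of a step is a step. -/
theorem exists_bc {h : Hom f a a'} (hh : h.PO) {k : Hom f b b'} (hk : k.PO) :
    ∃ s' : Step e a' b', s'.x = s.x ≫ ah h.n ∧ s'.y = s.y ≫ ah h.z ∧ s'.χ = s.χ ≫ ah k.n ∧
      s'.ξ = s.ξ ≫ ah k.z ∧ h.n ≫ s'.hom.n = s.hom.n ≫ k.n ∧ h.z ≫ s'.hom.z = s.hom.z ≫ k.z := by
  obtain ⟨l, h1, h2⟩ := hh.lift (g := 𝟙 B') ((s.hom.comp k).cast (by simp))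
  have h1' : h.n ≫ l.n = s.hom.n ≫ k.n := h1
  have h2' : h.z ≫ l.z = s.hom.z ≫ k.z := h2
  have e1 : a'.β ≫ l.n = b'.β := l.hβ.trans (Category.id_comp _)
  have e2 : a'.γ ≫ l.z = b'.γ := by rw [l.hγ, trivMap_id, Category.id_comp]
  have p1 : IsPushout s.hom.n h.n k.n l.n :=
    IsPushout.of_left (by rw [s.hβ, e1]; exact hk.1) h1'.symm hh.1
  have p2 : IsPushout s.hom.z h.z k.z l.z :=
    IsPushout.of_left (by rw [s.hγ, e2]; exact hk.2) h2'.symm hh.2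
  refine ⟨⟨l, _, _, _, _, IsAtt.of_isPushout s.attN p1, IsAtt.of_isPushout s.attZ p2,
    s.hx_hom h, ?_⟩, rfl, rfl, rfl, rfl, h1', h2'⟩
  rw [← tenCone_map, Category.assoc, ← k.φ_z, reassoc_of% s.hχ]

end Step

end NZ

/-- All base changes of `a` exist and satisfy `Q`. -/
def UNZ (Q : ∀ B : CommMon M, NZ S B → Prop) (a : NZ S B) : Prop :=
  (∀ (B' : CommMon M) (f : B ⟶ B'), ∃ (a' : NZ S B') (h : NZ.Hom f a a'), h.PO) ∧
    ∀ (B' : CommMon M) (f : B ⟶ B') (a' : NZ S B') (h : NZ.Hom f a a'), h.PO → Q B' a'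

namespace UNZ

variable {Q Q' : ∀ B : CommMon M, NZ S B → Prop} {a b : NZ S B}

theorem ex (h : UNZ Q a) (f : B ⟶ B') : ∃ (a' : NZ S B') (h : NZ.Hom f a a'), h.PO := h.1 B' f

theorem self (h : UNZ Q a) : Q B a := h.2 B (𝟙 B) a (.id a) (.id a)

theorem mono (h : UNZ Q a) (k : ∀ B a, Q B a → Q' B a) : UNZ Q' a :=
  ⟨h.1, fun B' f a' l hl => k _ _ (h.2 B' f a' l hl)⟩

/-- stability under base change -/
theorem bc (h : UNZ Q a) {f : B ⟶ B'} {a' : NZ S B'} {k : NZ.Hom f a a'} (hk : k.PO) :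
    UNZ Q a' := by
  refine ⟨fun B'' g => ?_, fun B'' g a'' l hl => h.2 B'' _ a'' _ (hk.comp hl)⟩
  obtain ⟨a'', m, hm⟩ := h.ex (f ≫ g)
  obtain ⟨l, h1, h2⟩ := hk.lift m
  exact ⟨a'', l, hk.of_comp hm h1 h2⟩

/-- stability under steps -/
theorem step {P : M} {Y : Action M G} {e : (uL S).obj P ⟶ Y} (h : UNZ Q a) (s : NZ.Step e a b)
    (H : ∀ (B' : CommMon M) (f : B ⟶ B') (a' b' : NZ S B') (k : NZ.Hom f a a')
      (l : NZ.Hom f b b') (s' : NZ.Step e a' b'), k.PO → s'.x = s.x ≫ ah k.n →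
      s'.y = s.y ≫ ah k.z → s'.χ = s.χ ≫ ah l.n → s'.ξ = s.ξ ≫ ah l.z → Q B' a' → Q' B' b') :
    UNZ Q' b := by
  refine ⟨fun B' f => ?_, fun B' f b' l hl => ?_⟩
  · obtain ⟨a', k, hk⟩ := h.ex f
    exact s.exists_po hk
  · obtain ⟨a', k, hk⟩ := h.ex f
    obtain ⟨s', h1, h2, h3, h4, -⟩ := s.exists_bc hk hl
    exact H B' f a' b' k l s' hk h1 h2 h3 h4 (h.2 B' f a' k hk)

end UNZ

end Vale.Agent.P257.N
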